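import Vale.Agent.P040.H610.TriField
import Vale.Agent.P040.H242.Final
import Vale.Agent.P040.H147.Anti
import Vale.Agent.P040.H112.Cent

/-!
# The instance of `CoreHyp` for the curves of star diagrams

The remaining inputs are the uniqueness of values, the twist and the triangle rule.
-/

set_option autoImplicit false

namespace Vale.Agent.P040.ToCrv

open Pst P040H251 Vale.Agent.P040.H906 H84 Bp

variable {h : ℕ}

/-- uniqueness of the values (class theorem) -/
def Uniq (P : LData h) : Prop := ∀ {z R v v'}, P.Val z R v → P.Val z R v' → v = v'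

/-- the twist around the leaf -/
def Twist (P : LData h) (e : ℝ) : Prop :=
  ∀ {z R v}, P.Val z R v → P.Val z ((sl P.G0 z)⁻¹ * R * sl P.G0 z) (v + e * (h - 1))

theorem cyc_G0 (P : LData h) : W.Cyc P.G0 := by
  intro a c ha hc
  show P.rk a % (2 * h) = P.rk c % (2 * h)
  have h1 : P.rk a = 0 := by
    unfold LData.rk
    rw [Finset.card_eq_zero, Finset.filter_eq_empty_iff]
    intro i _
    exact not_lt.2 (ha i).le
  have h2 : P.rk c = 2 * h := by
    unfold LData.rk
    rw [Finset.filter_true_of_mem fun i _ => hc i]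
    simp
  rw [h1, h2]
  simp

theorem lt_ne_rt (P : LData h) (z : Fin (2 * h)) : P.G0.lt z ≠ P.G0.rt z := by
  show P.rk (P.pos z) ≠ (P.rk (P.pos z) + 1) % (2 * h)
  have h1 := P.rk_pos_lt z
  have h2 := P.two_le
  rcases Nat.lt_or_ge (P.rk (P.pos z) + 1) (2 * h) with h3 | h3
  · rw [Nat.mod_eq_of_lt h3]; omega
  · have h4 : P.rk (P.pos z) + 1 = 2 * h := by omega
    rw [h4, Nat.mod_self]
    omega

/-- **The instance.** -/
theorem coreHyp (P : LData h) {e : ℝ} (he : e = 1 ∨ e = -1) (hu : Uniq P) (ht : Twist P e)
    (HT : TriGeom P) : CoreHyp h (sl P.G0) P.Val (Dgs P.pos P.G0) e where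
  two_le := P.two_le
  sgn := he
  uniq := fun h1 h2 => hu h1 h2
  twist := fun h1 => ht h1
  cent := by
    intro z c hc
    refine H112.cent_mul_inv (lt_ne_rt P z) ?_
    have hc' : c * sl P.G0 z = sl P.G0 z * c := hc
    show c * sl P.G0 z * c⁻¹ = sl P.G0 z
    rw [hc']
    group
  rot := fun hD => hD.rot
  len := fun hD => by simpa using hD.len
  nodup := fun hD => hD.nodup
  prod := fun hD => hD.prod
  tw := fun hD => hD.tw
  tw' := fun hD => hD.tw'
  tri := fun hD hl => tri_of HT hD hl

/-- balanced pages -/
def mkData (hh : 2 ≤ h) (leaf : Fin (2 * h) → ℝ) (hl : Function.Injective leaf) : LData h where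
  pos := leaf
  inj := hl
  pg := fun i => decide (i.val < h)
  bal := by
    intro b
    have key : (Finset.univ.filter fun i : Fin (2 * h) => i.val < h).card = h := by
      rw [Fin.card_filter_val_lt]
      omega
    cases b
    · have h1 : (Finset.univ.filter fun i : Fin (2 * h) => decide (i.val < h) = false) =
          Finset.univ \ (Finset.univ.filter fun i : Fin (2 * h) => i.val < h) := by
        ext i
        simp
      rw [h1, Finset.card_sdiff_of_subset (Finset.filter_subset _ _), key, Finset.card_univ,
        Fintype.card_fin]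
      omega
    · simpa using key
  two_le := hh

/-- **The geometric input of the final assembly.** -/
theorem selInput (hh : 2 ≤ h) (leaf : Fin (2 * h) → ℝ) (hl : Function.Injective leaf) {e : ℝ}
    (he : e = 1 ∨ e = -1) (hu : Uniq (mkData hh leaf hl)) (ht : Twist (mkData hh leaf hl) e)
    (HT : TriGeom (mkData hh leaf hl)) : SelInput h leaf := by
  have H := coreHyp (mkData hh leaf hl) he hu ht HT
  exact ⟨ℕ, (mkData hh leaf hl).G0, (mkData hh leaf hl).Val, e, cyc_G0 _, H,
    fun L L' hL hL' htq z => H.anti hL hL' htq z⟩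

/-- **`Machine`** from uniqueness, twist and triangle rule. -/
theorem machine_of (H : ∀ (h : ℕ) (P : LData h), Uniq P ∧ Twist P (-1) ∧ TriGeom P) : Machine :=
  machine_of_input fun h hh leaf hl => selInput hh leaf hl (Or.inr rfl)
    (fun {_ _ _ _} => (H h _).1) (fun {_ _ _} => (H h _).2.1) (H h _).2.2

end Vale.Agent.P040.ToCrv
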