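import Vale.Agent.P040.H610.Rot
import Vale.Agent.P040.H84.ValDef
import Vale.Agent.P040.H242.DblWord

/-!
# The values of doubled sub-stars
-/

set_option autoImplicit false

namespace Vale.Agent.P040.ToCrv

open Pst P040H251 Vale.Agent.P040.H906 H84

variable {h : ℕ} (P : LData h)

/-- **Existence.** A consistent function on the doubled sub-star gives the value of the class of
the curve, read from any of its leaves. -/
theorem exists_val {S : List (Fin (2 * h) × List ℝ)} (hS : IsStar P.pos S) {ε : ℝ}
    (hε : Sepd ε (pts S)) (h0 : 0 < ε) {A B : List (Fin (2 * h) × List ℝ)} {z : Fin (2 * h)}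
    {p : List ℝ} (hT : ∀ q ∈ A ++ (z, p) :: B, q ∈ S) {E : ℝ → ℝ}
    (hC : Crv P.D0 false (dbl ε (A ++ (z, p) :: B)) E) :
    P.Val z ((Pst.wz P.G0 z p)⁻¹ * ((B ++ A).map fun q => lp P.G0 q.1 q.2).prod *
        Pst.wz P.G0 z p)
      ((selApi (W := ℝ)).val false (dbl ε (A ++ (z, p) :: B)) E - E (P.pos z + ε)) := by
  have hz : (z, p) ∈ S := hT _ (by simp)
  obtain ⟨l, hl⟩ := hS.ends (z, p) hz
  simp only at hl
  have hpne : p ≠ [] := by rw [hl]; simp
  have hodd : Odd ((dbl ε A).length + idx p) := (dbl_length_even ε A).add_odd (odd_idx hpne)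
  obtain ⟨c1, c2⟩ := crv_rot_odd hC hodd
  rw [dbl_rotate hl, Bool.not_false] at c1 c2
  have hpz : P.pos z ∈ pts S := hS.leaf_mem z
  have e1 : p.dropLast = l := by rw [hl]; simp
  have e2 : ∀ δ, sh δ p = sh δ l ++ [P.pos z + sg l.length δ] := by
    intro δ
    rw [hl, sh_append, sh_cons, sh_nil]
  refine ⟨P.pos z + ε, P.pos z - ε, rest ε p (B ++ A), E, c1, ?_, ?_, ?_⟩
  · refine ⟨?_, by linarith, by linarith, ?_, ?_, ?_⟩
    · rcases hf : fl l.length true with _ | _
      · left
        have e4 : sg l.length ε = -ε := by rw [sg_eq, hf]; simp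
        unfold rest
        rw [e1, hf, if_neg (by simp), e2 ε, e4]
        simp [sub_eq_add_neg]
      · right
        have e3 : sg l.length (-ε) = -ε := by rw [sg_eq, hf]; simp
        unfold rest
        rw [e1, hf, if_pos rfl, e2 (-ε), e3, ← List.append_assoc, ← List.append_assoc,
          List.getLast?_append]
        simp [sub_eq_add_neg]
    · intro w hw
      have hw' : w ∈ dbl ε (A ++ (z, p) :: B) := by
        have : w ∈ (dbl ε (A ++ (z, p) :: B)).rotate ((dbl ε A).length + idx p) := by
          rw [dbl_rotate hl]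
          exact List.mem_cons_of_mem _ hw
        exact List.mem_rotate.1 this
      exact dbl_gap hε h0 hT hpz hw'
    · refine P.rk_congr (by linarith) ?_
      intro x hx
      have hlt : P.pos x < P.pos z := hx.2
      have := hε.lt (hS.leaf_mem x) hpz hlt
      linarith [hx.1]
    · refine P.rk_succ z (by linarith) ?_
      intro x hx
      have hlt : P.pos z < P.pos x := hx.1
      have := hε.lt hpz (hS.leaf_mem x) hlt
      linarith [hx.2]
  · refine hS.wd_rest P.G0 hε h0 hz (B ++ A) ?_
    intro q hq
    apply hT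
    simp only [List.mem_append, List.mem_cons] at hq ⊢
    tauto
  · rw [c2]

end Vale.Agent.P040.ToCrv
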