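import Vale.Agent.P040.H251.SelInst

/-!
# Rotation of the list of a curve
-/

set_option autoImplicit false

namespace Vale.Agent.P040.ToCrv

open P040H251 Vale.Agent.P040.H906

variable {s : Bool} {L : List ℝ}

lemma g_rot_lt {i : ℕ} (hi : i + 1 < L.length) : g (L.rotate 1) i = g L (i + 1) := by
  cases L with
  | nil => simp at hi
  | cons a t =>
    rw [List.rotate_cons_succ, List.rotate_zero]
    simp only [List.length_cons, add_lt_add_iff_right] at hi
    unfold g
    rw [List.getD_append _ _ _ _ hi]
    simp

lemma g_rot_last (h : L ≠ []) : g (L.rotate 1) (L.length - 1) = g L 0 := by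
  cases L with
  | nil => exact absurd rfl h
  | cons a t =>
    rw [List.rotate_cons_succ, List.rotate_zero]
    unfold g
    simp

lemma cl_rot (h : CL L) (k : ℕ) : CL (L.rotate k) where
  nodup := List.nodup_rotate.2 h.nodup
  even := by rw [List.length_rotate]; exact h.even
  pos := by rw [List.length_rotate]; exact h.pos

/-- the partner functions do not change -/
lemma fO_rot (h : CL L) (b : Bool) {x : ℝ} (hx : x ∈ L) :
    fO (!s) (L.rotate 1) b x = fO s L b x := by
  have hx' : x ∈ L.rotate 1 := List.mem_rotate.2 hx
  obtain ⟨i, hi, rfl⟩ := ex_idx hx'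
  rw [List.length_rotate] at hi
  have h' := cl_rot h 1
  have hev := h.even
  have hne : L ≠ [] := by
    have := h.pos
    rintro rfl
    simp at this
  rw [f_g h' (!s) b (by rwa [List.length_rotate]), List.length_rotate]
  -- the index in `L`
  have hg : ∀ j, j < L.length → g (L.rotate 1) j = g L (if j + 1 = L.length then 0 else j + 1) := by
    intro j hj
    split_ifs with hc
    · rw [← g_rot_last hne]; congr 1; omega
    · exact g_rot_lt (by omega)
  have hj : (if i + 1 = L.length then 0 else i + 1) < L.length := by
    have := h.pos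
    split_ifs <;> omega
  rw [hg i hi, f_g h s b hj, hg _ (pI_lt h.even hi)]
  congr 1
  -- arithmetic
  have key : ∀ n i : ℕ, n % 2 = 0 → i < n →
      (if lI n i + 1 = n then 0 else lI n i + 1) = uI (if i + 1 = n then 0 else i + 1) := by
    intro n i hn hi
    have h1 := lI_cases n i
    generalize lI n i = r at *
    unfold uI
    split_ifs <;> omega
  have key' : ∀ n i : ℕ, n % 2 = 0 → i < n →
      (if uI i + 1 = n then 0 else uI i + 1) = lI n (if i + 1 = n then 0 else i + 1) := by
    intro n i hn hi
    have h1 := uI_cases i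
    generalize uI i = r at *
    unfold lI
    split_ifs <;> first | omega | contradiction
  cases s <;> cases b
  · exact key _ _ hev hi
  · exact key' _ _ hev hi
  · exact key' _ _ hev hi
  · exact key _ _ hev hi

lemma agree_rot (h : CL L) : Agree (cfg s L) (cfg (!s) (L.rotate 1)) where
  S := by
    ext y
    simp
  f := fun b x hx => by
    simp only [cfg_S, List.mem_toFinset] at hx
    exact fO_rot h b hx

theorem crv_rot {D : Dat ℝ} {E : ℝ → ℝ} (h : Crv D s L E) : Crv D (!s) (L.rotate 1) E where
  cl := cl_rot h.cl 1
  pl := planar_of_good ((agree_rot h.cl).good h.good)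
  inc := by
    intro b x hx
    have hx' : x ∈ L := List.mem_rotate.1 hx
    rw [fO_rot h.cl b hx']
    exact h.inc b x hx'

theorem val_rot {D : Dat ℝ} {E : ℝ → ℝ} (h : Crv D s L E) :
    (selApi (W := ℝ)).val (!s) (L.rotate 1) E = (selApi (W := ℝ)).val s L E :=
  (selApi (W := ℝ)).agree (agree_rot h.cl) h.good h.valid (crv_rot h).valid

/-- rotation by an odd number of points -/
theorem crv_rot_odd {D : Dat ℝ} {E : ℝ → ℝ} (h : Crv D s L E) {k : ℕ} (hk : Odd k) :
    Crv D (!s) (L.rotate k) E ∧
      (selApi (W := ℝ)).val (!s) (L.rotate k) E = (selApi (W := ℝ)).val s L E := by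
  obtain ⟨m, rfl⟩ := hk
  induction m with
  | zero => exact ⟨crv_rot h, val_rot h⟩
  | succ m ih =>
    have e : L.rotate (2 * (m + 1) + 1) = ((L.rotate (2 * m + 1)).rotate 1).rotate 1 := by
      rw [List.rotate_rotate, List.rotate_rotate]
      congr 1
    rw [e]
    have h1 := crv_rot ih.1
    have h2 := crv_rot h1
    rw [Bool.not_not] at h2
    refine ⟨h2, ?_⟩
    have e1 := val_rot ih.1
    have e2 := val_rot h1
    rw [Bool.not_not] at e2
    rw [e2, e1, ih.2]

end Vale.Agent.P040.ToCrv
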