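import Vale.Agent.P040.H251.SelInst

/-!
# Transport of curves along maps which preserve the cyclic order
-/

set_option autoImplicit false

namespace Vale.Agent.P040.ToCrv

open P040H251 Vale.Agent.P040.H906

variable {s : Bool} {L : List ℝ} {φ : ℝ → ℝ}

lemma g_map {i : ℕ} (hi : i < L.length) : g (L.map φ) i = φ (g L i) := by
  unfold g
  rw [List.getD_eq_getElem _ _ (by simpa using hi), List.getD_eq_getElem _ _ hi]
  simp

lemma cl_map (h : CL L) (hinj : ∀ x ∈ L, ∀ y ∈ L, φ x = φ y → x = y) : CL (L.map φ) where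
  nodup := h.nodup.map_on hinj
  even := by rw [List.length_map]; exact h.even
  pos := by rw [List.length_map]; exact h.pos

lemma fO_map (h : CL L) (hinj : ∀ x ∈ L, ∀ y ∈ L, φ x = φ y → x = y) (b : Bool) {x : ℝ}
    (hx : x ∈ L) : fO s (L.map φ) b (φ x) = φ (fO s L b x) := by
  obtain ⟨i, hi, rfl⟩ := ex_idx hx
  rw [← g_map (φ := φ) hi, f_g (cl_map h hinj) s b (by simpa using hi), f_g h s b hi,
    List.length_map, g_map (pI_lt h.even hi)]

/-- `φ` moves the points with `w x = true` (a lower set) to the far right and is monotone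
otherwise. -/
structure Cut (L : List ℝ) (φ : ℝ → ℝ) (w : ℝ → Bool) : Prop where
  lt : ∀ x ∈ L, ∀ y ∈ L, (φ x < φ y ↔ (w x = w y ∧ x < y) ∨ (w x = false ∧ w y = true))
  low : ∀ x ∈ L, ∀ y ∈ L, w x = true → w y = false → x < y

lemma Cut.inj {w : ℝ → Bool} (hc : Cut L φ w) : ∀ x ∈ L, ∀ y ∈ L, φ x = φ y → x = y := by
  intro x hx y hy he
  have h1 := hc.lt x hx y hy
  have h2 := hc.lt y hy x hx
  rw [he] at h1 h2
  rcases lt_trichotomy x y with h | h | h
  · exfalso
    cases hwx : w x <;> cases hwy : w y <;> simp [hwx, hwy, h, not_lt.2 h.le] at h1 h2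
  · exact h
  · exfalso
    cases hwx : w x <;> cases hwy : w y <;> simp [hwx, hwy, h, not_lt.2 h.le] at h1 h2

lemma Cut.cyc {w : ℝ → Bool} (hc : Cut L φ w) {x y z : ℝ} (hx : x ∈ L) (hy : y ∈ L)
    (hz : z ∈ L) : Cyc (φ x) (φ y) (φ z) ↔ Cyc x y z := by
  unfold Cyc
  rw [hc.lt x hx y hy, hc.lt y hy z hz, hc.lt z hz x hx]
  have h1 := hc.low x hx y hy
  have h2 := hc.low y hy z hz
  have h3 := hc.low z hz x hx
  have h4 := hc.low y hy x hx
  have h5 := hc.low z hz y hy
  have h6 := hc.low x hx z hz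
  cases hwx : w x <;> cases hwy : w y <;> cases hwz : w z <;> simp [hwx, hwy, hwz] at *
  all_goals grind

/-- **Transport of a curve.** -/
theorem crv_map {D D' : Dat ℝ} {E E' : ℝ → ℝ} {w : ℝ → Bool} (h : Crv D s L E)
    (hM : D'.M = D.M) (hc : Cut L φ w) (κ : Bool → ℝ)
    (hC : ∀ b, ∀ x ∈ L, D'.C b (D'.lab (φ x)) =
      D.C b (D.lab x) + (if w x then 2 * D.M else 0) + κ b)
    (hE : ∀ x ∈ L, E' (φ x) = E x) : Crv D' s (L.map φ) E' where
  cl := cl_map h.cl hc.inj
  pl := by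
    intro b x hx y hy
    rw [List.mem_map] at hx hy
    obtain ⟨x, hx, rfl⟩ := hx
    obtain ⟨y, hy, rfl⟩ := hy
    rw [fO_map h.cl hc.inj b hx, fO_map h.cl hc.inj b hy,
      hc.cyc hx hy (f_mem h.cl s b hx), hc.cyc hx (f_mem h.cl s b hy) (f_mem h.cl s b hx)]
    exact h.pl b x hx y hy
  inc := by
    intro b x hx
    rw [List.mem_map] at hx
    obtain ⟨x, hx, rfl⟩ := hx
    have hx' := f_mem h.cl s b hx
    rw [fO_map h.cl hc.inj b hx, hE _ hx', hE _ hx, hC b _ hx', hC b _ hx, h.inc b x hx, hM,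
      if_congr (hc.lt x hx _ hx') rfl rfl]
    have hlow := hc.low x hx _ hx'
    have hlow' := hc.low _ hx' x hx
    cases h1 : w x <;> cases h2 : w (fO s L b x) <;> simp only [h1, h2] at hlow hlow' ⊢
    · by_cases h3 : x < fO s L b x
      · simp [h3]
      · simp [h3]
    · have h3 : ¬ x < fO s L b x := not_lt.2 (hlow' (by simp) (by simp)).le
      simp [h3]; ring
    · have h3 : x < fO s L b x := hlow (by simp) (by simp)
      simp [h3]; ring
    · by_cases h3 : x < fO s L b x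
      · simp [h3]
      · simp [h3]

theorem val_map {D D' : Dat ℝ} {E E' : ℝ → ℝ} {w : ℝ → Bool} (h : Crv D s L E)
    (h' : Crv D' s (L.map φ) E') (hM : D'.M = D.M) (hc : Cut L φ w)
    (hE : ∀ x ∈ L, E' (φ x) = E x) :
    (selApi (W := ℝ)).val s (L.map φ) E' = (selApi (W := ℝ)).val s L E := by
  symm
  refine selApi_isoCyc (M := D.M) (φ := φ) h.good h'.good h.valid ?_ ?_ ?_
  · have := h'.valid
    rwa [hM] at this
  · refine ⟨?_, ?_, ?_, ?_, ?_⟩
    · intro x hx
      simp only [cfg_S, List.mem_toFinset] at hx ⊢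
      exact List.mem_map_of_mem hx
    · intro y hy
      simp only [cfg_S, List.mem_toFinset, List.mem_map] at hy ⊢
      exact hy
    · intro x hx y hy
      simp only [cfg_S, List.mem_toFinset] at hx hy
      exact hc.inj x hx y hy
    · intro b x hx
      simp only [cfg_S, List.mem_toFinset] at hx
      exact (fO_map h.cl hc.inj b hx).symm
    · intro x hx y hy z hz
      simp only [cfg_S, List.mem_toFinset] at hx hy hz
      exact (hc.cyc hx hy hz).symm
  · intro x hx
    simp only [cfg_S, List.mem_toFinset] at hx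
    exact hE x hx

/-- changing the labels without moving the points -/
theorem crv_relabel {D D' : Dat ℝ} {E : ℝ → ℝ} (h : Crv D s L E) (hM : D'.M = D.M)
    (κ : Bool → ℝ) (hC : ∀ b, ∀ x ∈ L, D'.C b (D'.lab x) = D.C b (D.lab x) + κ b) :
    Crv D' s L E where
  cl := h.cl
  pl := h.pl
  inc := by
    intro b x hx
    rw [hC b _ (f_mem h.cl s b hx), hC b _ hx, hM]
    linarith [h.inc b x hx]

/-! ### all curves in one label function -/

/-- a strictly monotone map into the open interval `(0, 1)` -/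
noncomputable def sq (x : ℝ) : ℝ := (1 + x / (1 + |x|)) / 2

lemma sq_pos (x : ℝ) : 0 < sq x := by
  unfold sq
  have h : 0 < 1 + |x| := by positivity
  have h1 : -1 < x / (1 + |x|) := by
    rw [lt_div_iff₀ h]
    linarith [neg_abs_le x]
  linarith

lemma sq_lt_one (x : ℝ) : sq x < 1 := by
  unfold sq
  have h : 0 < 1 + |x| := by positivity
  have h1 : x / (1 + |x|) < 1 := by
    rw [div_lt_iff₀ h]
    linarith [le_abs_self x]
  linarith

lemma sq_mono {x y : ℝ} (hxy : x < y) : sq x < sq y := by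
  unfold sq
  have hx : 0 < 1 + |x| := by positivity
  have hy : 0 < 1 + |y| := by positivity
  have : x / (1 + |x|) < y / (1 + |y|) := by
    rw [div_lt_div_iff₀ hx hy]
    rcases le_total 0 x with h1 | h1
    · rw [abs_of_nonneg h1, abs_of_nonneg (h1.trans hxy.le)]
      nlinarith
    · rcases le_total 0 y with h2 | h2
      · rw [abs_of_nonpos h1, abs_of_nonneg h2]
        nlinarith
      · rw [abs_of_nonpos h1, abs_of_nonpos h2]
        nlinarith
  linarith

/-- the label function `floor`, with given masses -/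
noncomputable def flr (D : Dat ℝ) : Dat ℝ where
  lab := fun x => ⌊x⌋₊
  mono := Nat.floor_mono
  C := D.C
  Cmono := D.Cmono
  M := D.M
  pos := D.pos
  tot := D.tot

/-- the embedding -/
noncomputable def emb (D : Dat ℝ) (x : ℝ) : ℝ := D.lab x + sq x

lemma emb_lt (D : Dat ℝ) {x y : ℝ} (h : x < y) : emb D x < emb D y := by
  unfold emb
  have h1 : (D.lab x : ℝ) ≤ D.lab y := by exact_mod_cast D.mono h.le
  linarith [sq_mono h]

lemma emb_strictMono (D : Dat ℝ) : StrictMono (emb D) := fun _ _ h => emb_lt D h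

lemma floor_emb (D : Dat ℝ) (x : ℝ) : ⌊emb D x⌋₊ = D.lab x := by
  unfold emb
  rw [Nat.floor_eq_iff (by have := sq_pos x; positivity)]
  constructor
  · linarith [sq_pos x]
  · linarith [sq_lt_one x]

lemma cut_emb (D : Dat ℝ) (L : List ℝ) : Cut L (emb D) (fun _ => false) where
  lt := by
    intro x _ y _
    simp [(emb_strictMono D).lt_iff_lt]
  low := by
    intro x _ y _ h
    simp at h

lemma wl_map_lab (lab lab' : ℝ → ℕ) (t : Bool) (L : List ℝ) (φ : ℝ → ℝ)
    (h : ∀ x ∈ L, lab' (φ x) = lab x) : wl lab' t (L.map φ) = wl lab t L := by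
  induction L generalizing t with
  | nil => rfl
  | cons a L ih =>
    rw [List.map_cons, wl, wl, h a (by simp), ih _ fun x hx => h x (List.mem_cons_of_mem _ hx)]

/-- **The class theorem for curves with different labelled positions.** -/
theorem class_eq' {D₁ D₂ : Dat ℝ} {L₁ L₂ : List ℝ} {E₁ E₂ : ℝ → ℝ} (hC : D₁.C = D₂.C)
    (hM : D₁.M = D₂.M) (h₁ : Crv D₁ s L₁ E₁) (h₂ : Crv D₂ s L₂ E₂)
    (u₁ : ∀ x ∈ L₁, x ≠ g L₁ 0 → D₁.lab x ≠ D₁.lab (g L₁ 0))
    (u₂ : ∀ x ∈ L₂, x ≠ g L₂ 0 → D₂.lab x ≠ D₂.lab (g L₂ 0))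
    (hw : wd D₁ s L₁ = wd D₂ s L₂) :
    (selApi (W := ℝ)).val s L₁ E₁ - E₁ (g L₁ 0) =
      (selApi (W := ℝ)).val s L₂ E₂ - E₂ (g L₂ 0) := by
  -- one curve
  have key : ∀ (D : Dat ℝ) (L : List ℝ) (E : ℝ → ℝ), Crv D s L E →
      (∀ x ∈ L, x ≠ g L 0 → D.lab x ≠ D.lab (g L 0)) →
      ∃ (L' : List ℝ) (E' : ℝ → ℝ), Crv (flr D) s L' E' ∧
        (∀ x ∈ L', x ≠ g L' 0 → (flr D).lab x ≠ (flr D).lab (g L' 0)) ∧
        wd (flr D) s L' = wd D s L ∧
        (selApi (W := ℝ)).val s L' E' - E' (g L' 0) =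
          (selApi (W := ℝ)).val s L E - E (g L 0) := by
    intro D L E h u
    have hinj := (emb_strictMono D).injective
    obtain ⟨ψ, hψ⟩ := hinj.hasLeftInverse
    have hE : ∀ x ∈ L, (fun y => E (ψ y)) (emb D x) = E x := by
      intro x _
      show E (ψ (emb D x)) = E x
      rw [hψ x]
    have hcr : Crv (flr D) s (L.map (emb D)) (fun y => E (ψ y)) := by
      refine crv_map h rfl (cut_emb D L) (fun _ => 0) ?_ hE
      intro b x _
      show D.C b ⌊emb D x⌋₊ = _
      rw [floor_emb]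
      simp
    have hp := h.cl.pos
    have h0 : g (L.map (emb D)) 0 = emb D (g L 0) := g_map hp
    refine ⟨L.map (emb D), fun y => E (ψ y), hcr, ?_, ?_, ?_⟩
    · intro x hx
      rw [List.mem_map] at hx
      obtain ⟨x, hx, rfl⟩ := hx
      rw [h0]
      intro hne
      show ⌊emb D x⌋₊ ≠ ⌊emb D (g L 0)⌋₊
      rw [floor_emb, floor_emb]
      exact u x hx fun e => hne (by rw [e])
    · unfold P040H251.wd
      rw [wl_map_lab D.lab (flr D).lab s L (emb D) fun x _ => floor_emb D x]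
    · rw [val_map h hcr rfl (cut_emb D L) hE, h0]
      show _ - E (ψ (emb D (g L 0))) = _
      rw [hψ]
  obtain ⟨M₁, F₁, a1, a2, a3, a4⟩ := key D₁ L₁ E₁ h₁ u₁
  obtain ⟨M₂, F₂, b1, b2, b3, b4⟩ := key D₂ L₂ E₂ h₂ u₂
  have e : flr D₁ = flr D₂ := by
    unfold flr
    congr 1
  rw [← a4, ← b4]
  rw [e] at a1 a2 a3
  exact class_eq (selApi (W := ℝ)) a1 b1 a2 b2 (by rw [a3, b3, hw])

end Vale.Agent.P040.ToCrv
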