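import Vale.Agent.P040.H682.OData
import Vale.Agent.P040.H251.Plus2
import Vale.Agent.P040.H242.Dgs
import Vale.Agent.P040.H242.DblWord

/-!
# The hexagon rule in the words of framed lists (odd number of leaves)
-/

set_option autoImplicit false
set_option linter.unusedSimpArgs false

namespace Vale.Agent.P040.OTri

open Pst P040H251 Vale.Agent.P040.H906 H84 H682

variable {h : ℕ} (P : OData h) (T : VApi ℝ)

/-- value of the doubled sub-star `L`, relative to the leaf `z` -/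
noncomputable def rvT (ε : ℝ) (L : List (Fin (2 * h + 1) × List ℝ)) (E : ℝ → ℝ)
    (z : Fin (2 * h + 1)) : ℝ :=
  T.val false (dbl ε L) E - E (P.pos z + ε)

/-- **The hexagon rule (geometric form).** `h + 2` consecutive arms `a, A, b, B, c` of a star; in
each of the six configurations one of `a`, `b`, `c` is left out and another one is cut. -/
def HexGeom : Prop :=
  ∀ (S : List (Fin (2 * h + 1) × List ℝ)), IsStar P.pos S → ∀ ε : ℝ, 0 < ε → Sepd ε (pts S) →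
    ∀ (a b c : Fin (2 * h + 1) × List ℝ) (A B L : List (Fin (2 * h + 1) × List ℝ)),
      S = a :: (A ++ b :: (B ++ c :: L)) → A.length + B.length + 1 = h →
      ∃ Ec1 Ec2 Ea2 Ea3 Eb3 Eb1 : ℝ → ℝ,
        Crv (P.DC c.1 (P.pos c.1 + 2 * ε)) false (dbl ε (A ++ b :: (B ++ [c]))) Ec1 ∧
        Crv (P.DC c.1 (P.pos c.1 + 2 * ε)) false (dbl ε (a :: (A ++ (B ++ [c])))) Ec2 ∧
        Crv (P.DC a.1 (P.pos a.1 + 2 * ε)) false (dbl ε (a :: (A ++ (B ++ [c])))) Ea2 ∧
        Crv (P.DC a.1 (P.pos a.1 + 2 * ε)) false (dbl ε (a :: (A ++ b :: B))) Ea3 ∧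
        Crv (P.DC b.1 (P.pos b.1 + 2 * ε)) false (dbl ε (a :: (A ++ b :: B))) Eb3 ∧
        Crv (P.DC b.1 (P.pos b.1 + 2 * ε)) false (dbl ε (A ++ b :: (B ++ [c]))) Eb1 ∧
        |rvT P T ε (A ++ b :: (B ++ [c])) Ec1 c.1 - rvT P T ε (a :: (A ++ (B ++ [c]))) Ec2 c.1| +
        |rvT P T ε (a :: (A ++ (B ++ [c]))) Ea2 a.1 - rvT P T ε (a :: (A ++ b :: B)) Ea3 a.1| +
        |rvT P T ε (a :: (A ++ b :: B)) Eb3 b.1 - rvT P T ε (A ++ b :: (B ++ [c])) Eb1 b.1| ≤ 1

/-- **Existence of values** (interface): a consistent function on the doubled sub-star which is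
cut at the leaf `z` gives a value at `z`. -/
def ExVal (V : Fin (2 * h + 1) → FreeGroup ℕ → ℝ → Prop) : Prop :=
  ∀ (S : List (Fin (2 * h + 1) × List ℝ)), IsStar P.pos S → ∀ ε : ℝ, 0 < ε → Sepd ε (pts S) →
    ∀ (A B : List (Fin (2 * h + 1) × List ℝ)) (z : Fin (2 * h + 1)) (p : List ℝ),
      (∀ q ∈ A ++ (z, p) :: B, q ∈ S) → ∀ E : ℝ → ℝ,
      Crv (P.DC z (P.pos z + 2 * ε)) false (dbl ε (A ++ (z, p) :: B)) E →
      V z ((wz P.G0 z p)⁻¹ * ((B ++ A).map fun q => lp P.G0 q.1 q.2).prod * wz P.G0 z p)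
        (T.val false (dbl ε (A ++ (z, p) :: B)) E - E (P.pos z + ε))

variable {P T}

/-- the loops of a sub-star -/
lemma pr_frm {ι : Type*} {pos : ι → ℝ} {Γ : Type*} (G : Gaps pos Γ)
    (L : List (ι × List ℝ)) :
    pr (sl G) (frm G L) = (L.map fun q => lp G q.1 q.2).prod := by
  unfold pr frm
  rw [List.map_map]
  congr 1
  apply List.map_congr_left
  intro q _
  exact gg_wz G q.1 q.2

/-- the value of a sub-star as a value of the framed list -/
theorem val_frm {V : Fin (2 * h + 1) → FreeGroup ℕ → ℝ → Prop} (HV : ExVal P T V)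
    {S : List (Fin (2 * h + 1) × List ℝ)} (hS : IsStar P.pos S) {ε : ℝ}
    (hε : Sepd ε (pts S)) (h0 : 0 < ε) {L A B : List (Fin (2 * h + 1) × List ℝ)}
    {z : Fin (2 * h + 1) × List ℝ} (hT' : L = A ++ z :: B) (hT : ∀ q ∈ L, q ∈ S) {E : ℝ → ℝ}
    (hC : Crv (P.DC z.1 (P.pos z.1 + 2 * ε)) false (dbl ε L) E) {R : FreeGroup ℕ}
    (hR : R = (wz P.G0 z.1 z.2)⁻¹ * pr (sl P.G0) (frm P.G0 (B ++ A)) * wz P.G0 z.1 z.2) :
    V z.1 R (rvT P T ε L E z.1) := by
  subst hT'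
  rw [hR, pr_frm]
  exact HV S hS ε h0 hε A B z.1 z.2 hT E hC

/-- field `tri` -/
theorem tri_of {V : Fin (2 * h + 1) → FreeGroup ℕ → ℝ → Prop} (HV : ExVal P T V)
    (HT : HexGeom P T) {a b c : Fin (2 * h + 1) × FreeGroup ℕ}
    {A B L : List (Fin (2 * h + 1) × FreeGroup ℕ)}
    (hD : Dgs P.pos P.G0 (a :: (A ++ b :: (B ++ c :: L)))) (hl : A.length + B.length + 1 = h) :
    ∃ c1 c2 a2 a3 b3 b1 : ℝ,
      V c.1 (c.2⁻¹ * (pr (sl P.G0) A * gg (sl P.G0) b * pr (sl P.G0) B) * c.2) c1 ∧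
      V c.1 (c.2⁻¹ * (gg (sl P.G0) a * pr (sl P.G0) A * pr (sl P.G0) B) * c.2) c2 ∧
      V a.1 (a.2⁻¹ * (pr (sl P.G0) A * pr (sl P.G0) B * gg (sl P.G0) c) * a.2) a2 ∧
      V a.1 (a.2⁻¹ * (pr (sl P.G0) A * gg (sl P.G0) b * pr (sl P.G0) B) * a.2) a3 ∧
      V b.1 (b.2⁻¹ * (pr (sl P.G0) B * gg (sl P.G0) a * pr (sl P.G0) A) * b.2) b3 ∧
      V b.1 (b.2⁻¹ * (pr (sl P.G0) B * gg (sl P.G0) c * pr (sl P.G0) A) * b.2) b1 ∧
      |c1 - c2| + |a2 - a3| + |b3 - b1| ≤ 1 := by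
  obtain ⟨S, hS, hL, -⟩ := hD
  -- the arms
  unfold frm at hL
  rw [List.map_eq_cons_iff] at hL
  obtain ⟨a', S1, rfl, ha, hL⟩ := hL
  rw [List.map_eq_append_iff] at hL
  obtain ⟨A', S2, rfl, hA, hL⟩ := hL
  rw [List.map_eq_cons_iff] at hL
  obtain ⟨b', S3, rfl, hb, hL⟩ := hL
  rw [List.map_eq_append_iff] at hL
  obtain ⟨B', S4, rfl, hB, hL⟩ := hL
  rw [List.map_eq_cons_iff] at hL
  obtain ⟨c', L', rfl, hc, hL⟩ := hL
  obtain ⟨ε, h0, hε⟩ := exists_sepd (pts (a' :: (A' ++ b' :: (B' ++ c' :: L'))))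
  have hA' : frm P.G0 A' = A := hA
  have hB' : frm P.G0 B' = B := hB
  have hl' : A'.length + B'.length + 1 = h := by
    have e1 := congrArg List.length hA
    have e2 := congrArg List.length hB
    rw [List.length_map] at e1 e2
    omega
  obtain ⟨Ec1, Ec2, Ea2, Ea3, Eb3, Eb1, d1, d2, d3, d4, d5, d6, hh⟩ :=
    HT _ hS ε h0 hε a' b' c' A' B' L' rfl hl'
  subst ha hb hc
  have ga : gg (sl P.G0) (a'.1, wz P.G0 a'.1 a'.2) = pr (sl P.G0) (frm P.G0 [a']) := by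
    simp [frm]
  have gb : gg (sl P.G0) (b'.1, wz P.G0 b'.1 b'.2) = pr (sl P.G0) (frm P.G0 [b']) := by
    simp [frm]
  have gc : gg (sl P.G0) (c'.1, wz P.G0 c'.1 c'.2) = pr (sl P.G0) (frm P.G0 [c']) := by
    simp [frm]
  have fa : ∀ X Y : List (Fin (2 * h + 1) × List ℝ),
      frm P.G0 (X ++ Y) = frm P.G0 X ++ frm P.G0 Y := by
    intro X Y; simp [frm]
  have fc : ∀ (x : Fin (2 * h + 1) × List ℝ) (Y : List (Fin (2 * h + 1) × List ℝ)),
      pr (sl P.G0) (frm P.G0 (x :: Y)) =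
        gg (sl P.G0) (x.1, wz P.G0 x.1 x.2) * pr (sl P.G0) (frm P.G0 Y) := by
    intro x Y; simp [frm]
  have fn : pr (sl P.G0) (frm P.G0 ([] : List (Fin (2 * h + 1) × List ℝ))) = 1 := by
    simp [frm]
  refine ⟨_, _, _, _, _, _,
    val_frm HV hS hε h0 (L := A' ++ b' :: (B' ++ [c'])) (A := A' ++ b' :: B') (B := [])
      (z := c') (by simp)
      (by intro q hq; simp only [List.mem_append, List.mem_cons] at hq ⊢; tauto) d1 ?_,
    val_frm HV hS hε h0 (L := a' :: (A' ++ (B' ++ [c']))) (A := a' :: (A' ++ B')) (B := [])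
      (z := c') (by simp)
      (by intro q hq; simp only [List.mem_append, List.mem_cons] at hq ⊢; tauto) d2 ?_,
    val_frm HV hS hε h0 (L := a' :: (A' ++ (B' ++ [c']))) (A := []) (B := A' ++ (B' ++ [c']))
      (z := a') (by simp)
      (by intro q hq; simp only [List.mem_append, List.mem_cons] at hq ⊢; tauto) d3 ?_,
    val_frm HV hS hε h0 (L := a' :: (A' ++ b' :: B')) (A := []) (B := A' ++ b' :: B')
      (z := a') (by simp)
      (by intro q hq; simp only [List.mem_append, List.mem_cons] at hq ⊢; tauto) d4 ?_,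
    val_frm HV hS hε h0 (L := a' :: (A' ++ b' :: B')) (A := a' :: A') (B := B')
      (z := b') (by simp)
      (by intro q hq; simp only [List.mem_append, List.mem_cons] at hq ⊢; tauto) d5 ?_,
    val_frm HV hS hε h0 (L := A' ++ b' :: (B' ++ [c'])) (A := A') (B := B' ++ [c'])
      (z := b') (by simp)
      (by intro q hq; simp only [List.mem_append, List.mem_cons] at hq ⊢; tauto) d6 ?_, ?_⟩
  · simp only [List.nil_append, fa, pr_append, fc, hA', hB', fn, mul_one, mul_assoc]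
  · simp only [List.nil_append, fa, pr_append, fc, hA', hB', fn, mul_one, mul_assoc]
  · simp only [List.append_nil, fa, pr_append, fc, hA', hB', fn, mul_one, mul_assoc]
  · simp only [List.append_nil, fa, pr_append, fc, hA', hB', fn, mul_one, mul_assoc]
  · simp only [fa, pr_append, fc, hA', hB', fn, mul_one, mul_assoc]
  · simp only [List.append_assoc, List.cons_append, List.nil_append, fa, pr_append, fc, hA', hB',
      fn, mul_one, mul_assoc]
  · exact hh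

end Vale.Agent.P040.OTri
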