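import Vale.Agent.P040.H610.Finger

/-!
# Potentials on a doubled sub-star

`hub` is the constant of the centre seen from an arm: on the right copy of the arm the potential is
`hub + W`, on the left copy it is `hub + (B - wt) + W`.
-/

namespace Vale.Agent.P040.DblE

open Pst

variable {ι : Type*} {M : Bool → ℝ → ℝ} {B ε : ℝ} {E : ℝ → ℝ} {pos : ι → ℝ}

/-- `E` has the increments of the closed curve `L`: the pieces are alternately in the lower and in
the upper page -/
def Cons (M : Bool → ℝ → ℝ) (B : ℝ) (L : List ℝ) (E : ℝ → ℝ) : Prop :=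
  Pot M B false (L ++ [L.headI]) E

lemma cons_iff {L : List ℝ} : Cons M B L E ↔ ∀ d a b, (d, a, b) ∈ cpcs L → E b - E a = inc M B d a b :=
  Iff.rfl

/-- the sum of the signs at the centre -/
noncomputable def sgs (ε : ℝ) : List ℝ → ℝ
  | a :: b :: t => sgn' (a + ε) (b - ε) + sgs ε (b :: t)
  | _ => 0

@[simp] lemma sgs_one (a : ℝ) : sgs ε [a] = 0 := rfl
lemma sgs_cons (a b : ℝ) (t : List ℝ) :
    sgs ε (a :: b :: t) = sgn' (a + ε) (b - ε) + sgs ε (b :: t) := rfl

/-- the constant of the centre at the arm which follows the arms `T` and has the first point `f` -/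
noncomputable def hub (M : Bool → ℝ → ℝ) (B ε : ℝ) (pos : ι → ℝ) (κ : ℝ) (T : List (ι × List ℝ))
    (f : ℝ) : ℝ :=
  κ + (T.map fun q => B - wt M ε (pos q.1)).sum - B * sgs ε (fsts T ++ [f])

@[simp] lemma hub_nil (κ f : ℝ) : hub M B ε pos κ [] f = κ := by simp [hub, fsts]

lemma hub_cons (κ : ℝ) (q : ι × List ℝ) (T : List (ι × List ℝ)) (f : ℝ) :
    hub M B ε pos κ (q :: T) f = hub M B ε pos
      (κ + (B - wt M ε (pos q.1)) - B * sgn' (q.2.headI + ε) ((fsts T ++ [f]).headI - ε)) T f := by
  unfold hub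
  have e : fsts (q :: T) ++ [f] = q.2.headI :: (fsts T ++ [f]) := by simp [fsts]
  rw [e]
  obtain ⟨g, s, hg⟩ : ∃ g s, fsts T ++ [f] = g :: s := by
    cases h : fsts T ++ [f] with
    | nil => simp at h
    | cons g s => exact ⟨g, s, rfl⟩
  rw [hg, sgs_cons]
  simp only [List.map_cons, List.sum_cons, List.headI_cons]
  ring

/-- the arms of a sub-star: what is needed for the potentials -/
structure Arms (M : Bool → ℝ → ℝ) (ε : ℝ) (pos : ι → ℝ) (T : List (ι × List ℝ)) : Prop where
  ends : ∀ q ∈ T, ∃ l, q.2 = l ++ [pos q.1] ∧ Flat M ε l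
  sep : ∀ q ∈ T, Sepd ε q.2
  nodup : ∀ q ∈ T, q.2.Nodup

lemma Arms.ne {T : List (ι × List ℝ)} (h : Arms M ε pos T) {q : ι × List ℝ} (hq : q ∈ T) :
    q.2 ≠ [] := by
  obtain ⟨l, hl, -⟩ := h.ends q hq
  rw [hl]; simp

lemma Arms.sub {T T' : List (ι × List ℝ)} (h : Arms M ε pos T) (hs : ∀ q ∈ T', q ∈ T) :
    Arms M ε pos T' :=
  ⟨fun q hq => h.ends q (hs q hq), fun q hq => h.sep q (hs q hq), fun q hq => h.nodup q (hs q hq)⟩

/-- the first point after the arms `T` -/
lemma dbl_snoc_head {T : List (ι × List ℝ)} (h : ∀ q ∈ T, q.2 ≠ []) (f : ℝ) (rest : List ℝ) :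
    ∃ t, dbl ε T ++ (f - ε) :: rest = ((fsts T ++ [f]).headI - ε) :: t := by
  cases T with
  | nil => exact ⟨rest, by simp [dbl, fsts]⟩
  | cons q T =>
    obtain ⟨a, s, hs⟩ := List.exists_cons_of_ne_nil (h q (by simp))
    refine ⟨sh ε s ++ ((sh ε (a :: s)).reverse ++ (dbl ε T ++ (f - ε) :: rest)), ?_⟩
    rw [dbl_cons, hs]
    simp [fsts, hs, sub_eq_add_neg]

/-- the constant of the centre at the next arm -/
theorem hub_eq {T : List (ι × List ℝ)} (h0 : 0 < ε) (hT : Arms M ε pos T) {f : ℝ} {rest : List ℝ}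
    (hE : Pot M B false (dbl ε T ++ (f - ε) :: rest) E) :
    E (f - ε) - M true (f - ε) = hub M B ε pos
      (E ((fsts T ++ [f]).headI - ε) - M true ((fsts T ++ [f]).headI - ε)) T f ∧
      Pot M B false ((f - ε) :: rest) E := by
  induction T with
  | nil => exact ⟨by simp [fsts], hE⟩
  | cons q T ih =>
    obtain ⟨l, hl, hf⟩ := hT.ends q (by simp)
    obtain ⟨a, s, hs⟩ := List.exists_cons_of_ne_nil (hT.ne (q := q) (by simp))
    obtain ⟨t, ht⟩ := dbl_snoc_head (ε := ε) (T := T) (fun q hq => hT.ne (List.mem_cons_of_mem _ hq))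
      f rest
    have hE1 : Pot M B false (sh (-ε) q.2 ++ ((sh ε q.2).reverse ++
        (dbl ε T ++ (f - ε) :: rest))) E := by
      rw [dbl_cons] at hE
      simpa using hE
    have hleft := fin_left (p := []) (r := s) (a := a) h0 hE1 hl hf (hT.sep q (by simp))
      (hT.nodup q (by simp)) hs
    simp only [List.length_nil, sg_zero, List.nil_append, sh_cons, sh_nil, W_one] at hleft
    -- the piece to the next arm
    have e1 : sh (-ε) q.2 ++ ((sh ε q.2).reverse ++ (dbl ε T ++ (f - ε) :: rest)) =
        (sh (-ε) q.2 ++ (sh (-ε) s).reverse) ++ (a + ε) ::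
          ((fsts T ++ [f]).headI - ε) :: t := by
      rw [ht]
      nth_rw 2 [hs]
      simp
    rw [e1] at hE1
    obtain ⟨-, h2, h3⟩ := hE1.append
    have e2 : (sh (-ε) q.2 ++ (sh (-ε) s).reverse).length = 2 * s.length + 1 := by
      rw [List.length_append, List.length_reverse, sh_length, sh_length, hs]
      simp; ring
    have e3 : fl (2 * s.length) false = false := by
      rcases fl_sg (2 * s.length) 1 with h | h
      · exact h.1
      · exfalso
        have := h.2
        rw [sg, pow_mul] at this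
        norm_num at this
    have e4 : fl (2 * s.length + 1) false = true := by rw [fl_succ, e3]; rfl
    rw [e2, e4] at h2
    rw [e2, fl_succ, e4, Bool.not_true, ← ht] at h3
    obtain ⟨ih1, ih2⟩ := ih (hT.sub fun q hq => List.mem_cons_of_mem _ hq) h3
    refine ⟨?_, ih2⟩
    rw [ih1, hub_cons]
    congr 1
    have e5 : (fsts (q :: T) ++ [f]).headI = q.2.headI := by simp [fsts]
    have e6 : q.2.headI = a := by rw [hs]; rfl
    rw [e5, e6]
    rw [e6] at hleft
    unfold inc at h2
    rw [pg_true] at h2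
    linarith

/-- the potential on the right copies -/
theorem pot_right {T₁ T₂ : List (ι × List ℝ)} {q : ι × List ℝ} (h0 : 0 < ε)
    (hT : Arms M ε pos T₁) (hq0 : q.2 ≠ []) {rest p r : List ℝ} {a : ℝ} 
    (hE : Pot M B false (dbl ε (T₁ ++ q :: T₂) ++ rest) E) (hq : q.2 = p ++ a :: r) :
    E (a + sg p.length (-ε)) = hub M B ε pos
      (E ((fsts (T₁ ++ q :: T₂)).headI - ε) - M true ((fsts (T₁ ++ q :: T₂)).headI - ε)) T₁ q.2.headI
      + W M B (sh (-ε) (p ++ [a])) := by
  obtain ⟨b, s, hs⟩ := List.exists_cons_of_ne_nil hq0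
  have e1 : dbl ε (T₁ ++ q :: T₂) ++ rest = dbl ε T₁ ++ (q.2.headI - ε) ::
      (sh ε s ++ ((sh ε q.2).reverse ++ (dbl ε T₂ ++ rest))) := by
    rw [dbl_append, dbl_cons]
    nth_rw 1 [hs]
    simp [hs, sub_eq_add_neg]
  rw [e1] at hE
  obtain ⟨h1, h2⟩ := hub_eq h0 hT hE
  have e2 : (q.2.headI - ε) :: (sh ε s ++ ((sh ε q.2).reverse ++ (dbl ε T₂ ++ rest))) =
      sh (-ε) q.2 ++ ((sh ε q.2).reverse ++ (dbl ε T₂ ++ rest)) := by
    nth_rw 3 [hs]
    simp [hs, sub_eq_add_neg]
  rw [e2] at h2
  have h3 := fin_right h2 hq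
  rw [h1] at h3
  have e3 : (fsts T₁ ++ [q.2.headI]).headI = (fsts (T₁ ++ q :: T₂)).headI := by
    cases T₁ <;> simp [fsts]
  rw [e3] at h3
  exact h3

/-- the potential on the left copies -/
theorem pot_left {T₁ T₂ : List (ι × List ℝ)} {q : ι × List ℝ} (h0 : 0 < ε)
    (hT : Arms M ε pos (T₁ ++ [q])) {rest p r : List ℝ} {a : ℝ} 
    (hE : Pot M B false (dbl ε (T₁ ++ q :: T₂) ++ rest) E) (hq : q.2 = p ++ a :: r) :
    E (a + sg p.length ε) = hub M B ε pos
      (E ((fsts (T₁ ++ q :: T₂)).headI - ε) - M true ((fsts (T₁ ++ q :: T₂)).headI - ε)) T₁ q.2.headI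
      + (B - wt M ε (pos q.1)) + W M B (sh ε (p ++ [a])) := by
  have hq1 : q ∈ T₁ ++ [q] := by simp
  obtain ⟨b, s, hs⟩ := List.exists_cons_of_ne_nil (hT.ne hq1)
  have e1 : dbl ε (T₁ ++ q :: T₂) ++ rest = dbl ε T₁ ++ (q.2.headI - ε) ::
      (sh ε s ++ ((sh ε q.2).reverse ++ (dbl ε T₂ ++ rest))) := by
    rw [dbl_append, dbl_cons]
    nth_rw 1 [hs]
    simp [hs, sub_eq_add_neg]
  rw [e1] at hE
  obtain ⟨h1, h2⟩ := hub_eq h0 (hT.sub fun q hq => List.mem_append_left _ hq) hE
  have e2 : (q.2.headI - ε) :: (sh ε s ++ ((sh ε q.2).reverse ++ (dbl ε T₂ ++ rest))) =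
      sh (-ε) q.2 ++ ((sh ε q.2).reverse ++ (dbl ε T₂ ++ rest)) := by
    nth_rw 3 [hs]
    simp [hs, sub_eq_add_neg]
  rw [e2] at h2
  obtain ⟨l, hl, hf⟩ := hT.ends q hq1
  have h3 := fin_left h0 h2 hl hf (hT.sep q hq1) (hT.nodup q hq1) hq
  rw [h1] at h3
  have e3 : (fsts T₁ ++ [q.2.headI]).headI = (fsts (T₁ ++ q :: T₂)).headI := by
    cases T₁ <;> simp [fsts]
  rw [e3] at h3
  exact h3

/-! ### The closed curve -/

/-- the signs at the centre of a closed curve: exactly one is negative -/
lemma sgs_increasing {l : List ℝ} (h : l.Pairwise (· < ·)) (hs : Sepd ε l) (h0 : 0 < ε)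
    (hne : l ≠ []) : sgs ε l = l.length - 1 := by
  induction l with
  | nil => exact absurd rfl hne
  | cons a l ih =>
    cases l with
    | nil => simp
    | cons b t =>
      have hab : a < b := (List.pairwise_cons.1 h).1 b (by simp)
      have h1 := hs.lt (by simp) (by simp) hab
      rw [sgs_cons, ih (List.pairwise_cons.1 h).2 (hs.mono fun p hp => List.mem_cons_of_mem _ hp)
        (by simp), sgn'_of_lt (by linarith)]
      simp only [List.length_cons]
      push_cast
      ring

lemma sgs_append (l : List ℝ) (a b : ℝ) (t : List ℝ) :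
    sgs ε (l ++ a :: b :: t) = sgs ε (l ++ [a]) + sgn' (a + ε) (b - ε) + sgs ε (b :: t) := by
  induction l with
  | nil => simp [sgs_cons]
  | cons x l ih =>
    cases l with
    | nil =>
      simp only [List.cons_append, List.nil_append, sgs_cons, sgs_one]
      ring
    | cons y l =>
      simp only [List.cons_append, sgs_cons] at ih ⊢
      linarith

lemma sgs_cyc {f : List ℝ} (hc : Cyc f) (hne : f ≠ []) (hs : Sepd ε f) (h0 : 0 < ε) :
    sgs ε (f ++ [f.headI]) = f.length - 2 := by
  obtain ⟨l₁, l₂, rfl, hp⟩ := hc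
  have hs' : Sepd ε (l₁ ++ l₂) := hs.mono fun p hp => by
    rcases List.mem_append.1 hp with h | h
    · exact List.mem_append_right _ h
    · exact List.mem_append_left _ h
  have hsort := List.pairwise_append.1 hp
  have hs1 : Sepd ε l₁ := hs'.mono fun p hp => List.mem_append_left _ hp
  have hs2 : Sepd ε l₂ := hs'.mono fun p hp => List.mem_append_right _ hp
  -- the only descent is from the last point of the increasing list to the first
  rcases List.eq_nil_or_concat l₂ with rfl | ⟨u, z, rfl⟩
  · -- `l₁` alone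
    rcases List.eq_nil_or_concat l₁ with rfl | ⟨v, y, rfl⟩
    · simp at hne
    · simp only [List.concat_eq_append, List.nil_append] at *
      rw [List.append_assoc, List.singleton_append, sgs_append, sgs_one,
        sgs_increasing (hsort.1) hs1 h0 (by simp)]
      have hge : (v ++ [y]).headI ≤ y := by
        cases v with
        | nil => simp
        | cons w v =>
          have := (List.pairwise_cons.1 hsort.1).1 y (by simp)
          simpa using this.le
      rw [sgn'_of_gt (by linarith)]
      ring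
  · simp only [List.concat_eq_append] at *
    cases l₁ with
    | nil =>
      simp only [List.append_nil] at *
      rw [List.append_assoc, List.singleton_append, sgs_append, sgs_one,
        sgs_increasing (hsort.2.1) hs2 h0 (by simp)]
      have hge : (u ++ [z]).headI ≤ z := by
        cases u with
        | nil => simp
        | cons w v =>
          have := (List.pairwise_cons.1 hsort.2.1).1 z (by simp)
          simpa using this.le
      rw [sgn'_of_gt (by linarith)]
      ring
    | cons w v =>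
      have e1 : (u ++ [z]) ++ (w :: v) ++ [((u ++ [z]) ++ (w :: v)).headI] =
          u ++ z :: w :: (v ++ [(u ++ [z]).headI]) := by
        have : ((u ++ [z]) ++ (w :: v)).headI = (u ++ [z]).headI := by
          cases u <;> simp
        rw [this]; simp
      rw [e1, sgs_append, sgs_increasing hsort.2.1 hs2 h0 (by simp)]
      have hwz : w < z := hsort.2.2 w (by simp) z (by simp)
      rw [sgn'_of_gt (by linarith)]
      -- the last part
      have e2 : w :: (v ++ [(u ++ [z]).headI]) = (w :: v) ++ [(u ++ [z]).headI] := by simp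
      have hm : (u ++ [z]).headI ∈ u ++ [z] := by cases u <;> simp
      have hinc : ((w :: v) ++ [(u ++ [z]).headI]).Pairwise (· < ·) := by
        rw [List.pairwise_append]
        refine ⟨hsort.1, by simp, ?_⟩
        intro a ha b hb
        rw [List.mem_singleton] at hb
        subst hb
        exact hsort.2.2 a ha _ hm
      rw [e2, sgs_increasing hinc (hs'.mono ?_) h0 (by simp)]
      · simp only [List.length_append, List.length_cons, List.length_nil]
        push_cast
        ring
      · intro p hp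
        rcases List.mem_append.1 hp with h | h
        · exact List.mem_append_left _ h
        · rw [List.mem_singleton] at h
          subst h
          exact List.mem_append_right _ hm

lemma hub_snoc (κ : ℝ) (T : List (ι × List ℝ)) (q : ι × List ℝ) (f : ℝ) :
    hub M B ε pos κ (T ++ [q]) f = hub M B ε pos κ T q.2.headI + (B - wt M ε (pos q.1)) -
      B * sgn' (q.2.headI + ε) (f - ε) := by
  induction T generalizing κ with
  | nil =>
    rw [List.nil_append, hub_cons, hub_nil, hub_nil]
    simp [fsts]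
  | cons r T ih =>
    rw [List.cons_append, hub_cons, ih, hub_cons]
    congr 3
    have : (fsts (T ++ [q]) ++ [f]).headI = (fsts T ++ [q.2.headI]).headI := by
      cases T <;> simp [fsts]
    rw [this]

/-- the constant of the centre does not change along the whole curve -/
lemma hub_closed {T : List (ι × List ℝ)} (hc : Cyc (fsts T)) (hne : T ≠ []) (hs : Sepd ε (fsts T))
    (h0 : 0 < ε) (hw : (T.map fun q => wt M ε (pos q.1)).sum = 2 * B) (κ : ℝ) :
    hub M B ε pos κ T (fsts T).headI = κ := by
  unfold hub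
  rw [sgs_cyc hc (by simpa [fsts] using hne) hs h0]
  have h1 : (T.map fun q => B - wt M ε (pos q.1)).sum = T.length * B - 2 * B := by
    rw [← hw]
    clear hw hs hc hne
    induction T with
    | nil => simp
    | cons q T ih =>
      simp only [List.map_cons, List.sum_cons, List.length_cons] at ih ⊢
      rw [ih]; push_cast; ring
  have h2 : ((fsts T).length : ℝ) = T.length := by simp [fsts]
  rw [h1, h2]
  ring

lemma fsts_sepd {T : List (ι × List ℝ)} (hs : Sepd ε (pts T)) (hne : ∀ q ∈ T, q.2 ≠ []) :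
    Sepd ε (fsts T) := by
  apply hs.mono
  intro p hp
  obtain ⟨q, hq, rfl⟩ := List.mem_map.1 hp
  obtain ⟨a, s, h⟩ := List.exists_cons_of_ne_nil (hne q hq)
  refine List.mem_flatMap.2 ⟨q, hq, ?_⟩
  rw [h]; simp

/-- potentials on the boundary of a sub-star exist if the mass inside is the mass of a page -/
theorem exists_cons {T : List (ι × List ℝ)} (h0 : 0 < ε) (hT : Arms M ε pos T) (hne : T ≠ [])
    (hn : (pts T).Nodup) (hs : Sepd ε (pts T)) (hc : Cyc (fsts T))
    (hw : (T.map fun q => wt M ε (pos q.1)).sum = 2 * B) (e : ℝ) :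
    ∃ E : ℝ → ℝ, Cons M B (dbl ε T) E ∧ E ((fsts T).headI - ε) = e := by
  obtain ⟨E, h1, h2⟩ := exists_pot (M := M) (B := B) (c := false) (dbl_nodup hn hs h0) e
  have hhead : (dbl ε T).head? = some ((fsts T).headI - ε) := by
    cases T with
    | nil => exact absurd rfl hne
    | cons q T =>
      obtain ⟨a, s, h⟩ := List.exists_cons_of_ne_nil (hT.ne (q := q) (by simp))
      simp [dbl_cons, fsts, h, sub_eq_add_neg]
  have hE0 := h2 _ hhead
  refine ⟨E, ?_, hE0⟩
  rcases List.eq_nil_or_concat T with rfl | ⟨T₁, q, rfl⟩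
  · exact absurd rfl hne
  · rw [List.concat_eq_append] at *
    obtain ⟨a, s, h⟩ := List.exists_cons_of_ne_nil (hT.ne (q := q) (by simp))
    have h3 := pot_left (T₂ := []) (rest := []) (p := []) h0 hT (by simpa using h1) h
    simp only [List.length_nil, sg_zero, List.nil_append, sh_cons, sh_nil, W_one] at h3
    have h4 := hub_closed hc hne (fsts_sepd hs fun q hq => hT.ne hq) h0 hw
      (E ((fsts (T₁ ++ [q])).headI - ε) - M true ((fsts (T₁ ++ [q])).headI - ε))
    rw [hub_snoc] at h4
    have e1 : dbl ε (T₁ ++ [q]) = (dbl ε T₁ ++ (sh (-ε) q.2 ++ (sh (-ε) s).reverse)) ++ [a + ε] := by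
      rw [dbl_append, dbl_cons, dbl_nil]
      nth_rw 2 [h]
      simp
    have e2 : (dbl ε (T₁ ++ [q])).headI = (fsts (T₁ ++ [q])).headI - ε := by
      cases h5 : dbl ε (T₁ ++ [q]) with
      | nil => rw [h5] at hhead; simp at hhead
      | cons u v =>
        rw [h5] at hhead
        simpa using hhead
    have hpar : fl (dbl ε T₁ ++ (sh (-ε) q.2 ++ (sh (-ε) s).reverse)).length false = true := by
      have h6 := dbl_length_even ε (T₁ ++ [q])
      rw [e1, List.length_append] at h6
      obtain ⟨k, hk⟩ := h6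
      rcases fl_sg (dbl ε T₁ ++ (sh (-ε) q.2 ++ (sh (-ε) s).reverse)).length 1 with g | g
      · exfalso
        have h7 : (dbl ε T₁ ++ (sh (-ε) q.2 ++ (sh (-ε) s).reverse)).length + 1 = 2 * k := by
          rw [two_mul, ← hk]; simp
        have h8 := sg_succ (dbl ε T₁ ++ (sh (-ε) q.2 ++ (sh (-ε) s).reverse)).length (1 : ℝ)
        rw [h7, sg_neg, g.2, sg, pow_mul] at h8
        norm_num at h8
      · exact g.1
    unfold Cons
    rw [e2]
    intro d x y hm
    rw [e1, List.append_assoc, List.singleton_append, pcs_append] at hm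
    rw [e1] at h1
    rcases List.mem_append.1 hm with hm | hm
    · exact h1 d x y hm
    · rw [hpar] at hm
      simp only [pcs_one, List.mem_singleton, Prod.mk.injEq] at hm
      obtain ⟨rfl, rfl, rfl⟩ := hm
      unfold inc
      rw [pg_true]
      have e3 : q.2.headI = a := by rw [h]; rfl
      rw [e3] at h3 h4
      linarith

end Vale.Agent.P040.DblE
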