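import Vale.Agent.P040.H105.Star

/-!
# Increments along paths on the spine

`M true p`, `M false p`: the masses of the upper (lower) page to the left of the point `p`;
`2 B`: the mass of a page. The increment along a piece is the mass on one side minus `B`.
-/

namespace Vale.Agent.P040.DblE

open Pst

/-- the sign of `b - a` -/
noncomputable def sgn' (a b : ℝ) : ℝ := if a < b then 1 else -1

/-- the sign of a page -/
def pg (c : Bool) : ℝ := if c then 1 else -1

@[simp] lemma pg_true : pg true = 1 := rfl
@[simp] lemma pg_false : pg false = -1 := rfl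
lemma pg_not (c : Bool) : pg (!c) = - pg c := by cases c <;> simp

lemma sgn'_of_lt {a b : ℝ} (h : a < b) : sgn' a b = 1 := if_pos h
lemma sgn'_of_gt {a b : ℝ} (h : b < a) : sgn' a b = -1 := if_neg (not_lt.2 h.le)
lemma sgn'_swap {a b : ℝ} (h : a ≠ b) : sgn' b a = - sgn' a b := by
  rcases lt_or_gt_of_ne h with h | h
  · rw [sgn'_of_lt h, sgn'_of_gt h]
  · rw [sgn'_of_lt h, sgn'_of_gt h]; ring

lemma sgn'_congr {a b a' b' : ℝ} (h : a < b ↔ a' < b') : sgn' a b = sgn' a' b' := by
  unfold sgn'; rw [if_congr h rfl rfl]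

/-- the increment along the piece from `a` to `b` in the page `c` -/
noncomputable def inc (M : Bool → ℝ → ℝ) (B : ℝ) (c : Bool) (a b : ℝ) : ℝ :=
  pg c * ((M c b - M c a) - B * sgn' a b)

variable {M : Bool → ℝ → ℝ} {B : ℝ}

lemma inc_swap {c : Bool} {a b : ℝ} (h : a ≠ b) : inc M B c b a = - inc M B c a b := by
  unfold inc; rw [sgn'_swap h]; ring

/-- the sum of the increments along a path -/
noncomputable def tot (M : Bool → ℝ → ℝ) (B : ℝ) (c : Bool) (L : List ℝ) : ℝ :=
  ((pcs c L).map fun q => inc M B q.1 q.2.1 q.2.2).sum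

@[simp] lemma tot_nil (c : Bool) : tot M B c [] = 0 := rfl
@[simp] lemma tot_one (c : Bool) (a : ℝ) : tot M B c [a] = 0 := rfl
lemma tot_cons (c : Bool) (a b : ℝ) (t : List ℝ) :
    tot M B c (a :: b :: t) = inc M B c a b + tot M B (!c) (b :: t) := by
  simp [tot, pcs_cons]

lemma tot_append (c : Bool) (l : List ℝ) (b a : ℝ) (t : List ℝ) :
    tot M B c (l ++ b :: a :: t) =
      tot M B c (l ++ [b]) + (inc M B (fl l.length c) b a + tot M B (fl (l.length + 1) c) (a :: t)) := by
  simp [tot, pcs_append]

lemma tot_snoc (c : Bool) (l : List ℝ) (b a : ℝ) :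
    tot M B c (l ++ [b, a]) = tot M B c (l ++ [b]) + inc M B (fl l.length c) b a := by
  rw [tot_append]; simp

lemma tot_reverse {c : Bool} {L : List ℝ} (hn : L.Nodup) :
    tot M B (fl L.length c) L.reverse = - tot M B c L := by
  unfold tot
  rw [pcs_reverse, List.map_reverse, List.sum_reverse, List.map_map]
  have : ∀ (l : List (Bool × ℝ × ℝ)), (∀ q ∈ l, q.2.1 ≠ q.2.2) →
      (l.map ((fun q => inc M B q.1 q.2.1 q.2.2) ∘ fun q => (q.1, q.2.2, q.2.1))).sum =
        - (l.map fun q => inc M B q.1 q.2.1 q.2.2).sum := by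
    intro l hl
    induction l with
    | nil => simp
    | cons a t ih =>
      simp only [List.map_cons, List.sum_cons, Function.comp]
      rw [inc_swap (hl a (by simp)), neg_add]
      congr 1
      exact ih fun q hq => hl q (List.mem_cons_of_mem _ hq)
  apply this
  rintro ⟨d, a, b⟩ hq
  exact pcs_ne hn hq

/-! ### Potentials -/

/-- `E` has the increments of the pieces of the path `L` -/
def Pot (M : Bool → ℝ → ℝ) (B : ℝ) (c : Bool) (L : List ℝ) (E : ℝ → ℝ) : Prop :=
  ∀ d a b, (d, a, b) ∈ pcs c L → E b - E a = inc M B d a b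

lemma Pot.cons {c : Bool} {a b : ℝ} {t : List ℝ} {E : ℝ → ℝ} (h : Pot M B c (a :: b :: t) E) :
    E b - E a = inc M B c a b ∧ Pot M B (!c) (b :: t) E :=
  ⟨h _ _ _ (by simp [pcs_cons]), fun d x y hq => h d x y (by simp [pcs_cons, hq])⟩

/-- the part of a potential on an initial segment and on the rest -/
lemma Pot.append {c : Bool} {l t : List ℝ} {b a : ℝ} {E : ℝ → ℝ} (h : Pot M B c (l ++ b :: a :: t) E) :
    Pot M B c (l ++ [b]) E ∧ E a - E b = inc M B (fl l.length c) b a ∧
      Pot M B (fl (l.length + 1) c) (a :: t) E := by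
  unfold Pot at h
  simp only [pcs_append, List.mem_append, List.mem_cons] at h
  exact ⟨fun d x y hq => h d x y (Or.inl hq), h _ _ _ (Or.inr (Or.inl rfl)),
    fun d x y hq => h d x y (Or.inr (Or.inr hq))⟩

lemma Pot.ini {c : Bool} {l t : List ℝ} {b : ℝ} {E : ℝ → ℝ} (h : Pot M B c (l ++ b :: t) E) :
    Pot M B c (l ++ [b]) E := by
  cases t with
  | nil => exact h
  | cons a t => exact h.append.1

lemma Pot.suffix {c : Bool} {l t : List ℝ} {b : ℝ} {E : ℝ → ℝ} (h : Pot M B c (l ++ b :: t) E) :
    Pot M B (fl l.length c) (b :: t) E := by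
  rcases List.eq_nil_or_concat l with rfl | ⟨l', x, rfl⟩
  · exact h
  · rw [List.concat_eq_append, List.append_assoc] at h
    have := (Pot.append (t := t) (b := x) (a := b) (l := l') (by simpa using h)).2.2
    simpa using this

lemma Pot.tot {c : Bool} {a : ℝ} {l : List ℝ} {b : ℝ} {E : ℝ → ℝ} (h : Pot M B c (a :: (l ++ [b])) E) :
    E b - E a = tot M B c (a :: (l ++ [b])) := by
  induction l generalizing c a with
  | nil => rw [List.nil_append, tot_cons, tot_one, add_zero]; exact h.cons.1
  | cons x t ih =>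
    rw [List.cons_append] at h ⊢
    obtain ⟨h1, h2⟩ := h.cons
    rw [tot_cons, ← h1, ← ih h2]
    ring

lemma Pot.last_sub {c : Bool} {L : List ℝ} {E : ℝ → ℝ} (h : Pot M B c L E) (hne : L ≠ []) :
    E (L.getLast hne) - E (L.head hne) = DblE.tot M B c L := by
  cases L with
  | nil => exact absurd rfl hne
  | cons a t =>
    rcases List.eq_nil_or_concat t with rfl | ⟨l, b, rfl⟩
    · simp
    · simp only [List.concat_eq_append] at h hne ⊢
      have := h.tot
      simpa using this

lemma Pot.congr {c : Bool} {L : List ℝ} {E E' : ℝ → ℝ} (h : Pot M B c L E)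
    (hE : ∀ p ∈ L, E' p = E p) : Pot M B c L E' := by
  intro d a b hq
  have := mem_of_pcs hq
  rw [hE a this.1, hE b this.2]
  exact h d a b hq

theorem exists_pot {c : Bool} {L : List ℝ} (hn : L.Nodup) (e : ℝ) :
    ∃ E : ℝ → ℝ, Pot M B c L E ∧ ∀ a, L.head? = some a → E a = e := by
  induction L generalizing c e with
  | nil => exact ⟨fun _ => e, by intro d a b h; simp at h, by intro a h; simp at h⟩
  | cons a t ih =>
    cases t with
    | nil => exact ⟨fun _ => e, by intro d a b h; simp at h, by intro a h; rfl⟩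
    | cons b t =>
      have hn' := List.nodup_cons.1 hn
      obtain ⟨E, h1, h2⟩ := ih (c := !c) hn'.2 (e + inc M B c a b)
      have hb : E b = e + inc M B c a b := h2 b rfl
      refine ⟨Function.update E a e, ?_, ?_⟩
      · have h3 : ∀ p ∈ b :: t, Function.update E a e p = E p := by
          intro p hp
          rw [Function.update_of_ne]
          rintro rfl
          exact hn'.1 hp
        intro d x y hq
        rw [pcs_cons] at hq
        rcases List.mem_cons.1 hq with g | g
        · simp only [Prod.mk.injEq] at g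
          obtain ⟨rfl, rfl, rfl⟩ := g
          rw [h3 y (by simp), Function.update_self, hb]
          ring
        · exact (h1.congr h3) d x y g
      · intro x hx
        simp only [List.head?_cons, Option.some.injEq] at hx
        subst hx
        rw [Function.update_self]

end Vale.Agent.P040.DblE
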