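import Vale.Agent.P040.H105.Dbl
import Vale.Agent.P040.H610.Inc

/-!
# Potentials on the two copies of an arm
-/

namespace Vale.Agent.P040.DblE

open Pst

variable {ι : Type*} {M : Bool → ℝ → ℝ} {B ε : ℝ} {E : ℝ → ℝ}

lemma Pot.snoc {c : Bool} {l : List ℝ} {b : ℝ} (h : Pot M B c (l ++ [b]) E) :
    E b - E (l ++ [b]).headI = DblE.tot M B c (l ++ [b]) := by
  cases l with
  | nil => simp
  | cons a t => exact h.tot

lemma tot_split (c : Bool) (l : List ℝ) (b : ℝ) (t : List ℝ) :
    tot M B c (l ++ b :: t) = tot M B c (l ++ [b]) + tot M B (fl l.length c) (b :: t) := by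
  cases t with
  | nil => simp
  | cons a t => rw [tot_append, tot_cons, fl_succ]

/-- the potential of the last point of a path, with the centre as origin -/
noncomputable def W (M : Bool → ℝ → ℝ) (B : ℝ) (L : List ℝ) : ℝ := M true L.headI + tot M B false L

@[simp] lemma W_one (a : ℝ) : W M B [a] = M true a := by simp [W]

lemma headI_append_two (l : List ℝ) (b : ℝ) (t : List ℝ) : (l ++ b :: t).headI = (l ++ [b]).headI := by
  cases l <;> rfl

lemma W_snoc (l : List ℝ) (b a : ℝ) :
    W M B (l ++ [b, a]) = W M B (l ++ [b]) + inc M B (fl l.length false) b a := by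
  unfold W
  rw [tot_snoc, headI_append_two]; ring

lemma W_split (l : List ℝ) (b : ℝ) (t : List ℝ) :
    W M B (l ++ b :: t) = W M B (l ++ [b]) + tot M B (fl l.length false) (b :: t) := by
  unfold W
  rw [tot_split, headI_append_two]; ring

/-- no mass between the copies of the points of `l` -/
def Flat (M : Bool → ℝ → ℝ) (ε : ℝ) (l : List ℝ) : Prop :=
  ∀ p ∈ l, ∀ c σ, |σ| = ε → M c (p + σ) = M c p

lemma sgn'_copy {a b σ τ : ℝ} (h : 3 * ε < |a - b|) (h1 : |σ| = ε) (h2 : |τ| = ε) :
    sgn' (a + σ) (b + τ) = sgn' a b := by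
  have e1 := abs_le.1 h1.le
  have e2 := abs_le.1 h2.le
  have e0 : 0 ≤ ε := h1 ▸ abs_nonneg _
  apply sgn'_congr
  rcases le_total a b with g | g
  · rw [abs_of_nonpos (by linarith)] at h
    constructor <;> intro _ <;> linarith
  · rw [abs_of_nonneg (by linarith)] at h
    constructor <;> intro _ <;> linarith

lemma inc_copy {c : Bool} {a b σ τ : ℝ} (h : 3 * ε < |a - b|) (h1 : |σ| = ε) (h2 : |τ| = ε)
    (ha : M c (a + σ) = M c a) (hb : M c (b + τ) = M c b) :
    inc M B c (a + σ) (b + τ) = inc M B c a b := by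
  unfold inc
  rw [sgn'_copy h h1 h2, ha, hb]

lemma tot_sh {c : Bool} {l : List ℝ} {δ : ℝ} (hf : Flat M ε l) (hs : Sepd ε l) (hn : l.Nodup)
    (hδ : |δ| = ε) : tot M B c (sh δ l) = tot M B c l := by
  induction l generalizing c δ with
  | nil => simp
  | cons a l ih =>
    cases l with
    | nil => simp
    | cons b t =>
      have hn' := List.nodup_cons.1 hn
      have h2 := ih (c := !c) (fun p hp => hf p (List.mem_cons_of_mem _ hp))
        (hs.mono fun p hp => List.mem_cons_of_mem _ hp) hn'.2 (δ := -δ) (by rwa [abs_neg])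
      rw [sh_cons] at h2 ⊢
      rw [sh_cons, tot_cons, tot_cons, h2, inc_copy (hs a (by simp) b (by simp) ?_) hδ
        (by rwa [abs_neg]) (hf a (by simp) c δ hδ) (hf b (by simp) c (-δ) (by rwa [abs_neg]))]
      rintro rfl
      simp at hn

lemma W_sh {l : List ℝ} {δ : ℝ} (hne : l ≠ []) (hf : Flat M ε l) (hs : Sepd ε l) (hn : l.Nodup)
    (hδ : |δ| = ε) : W M B (sh δ l) = W M B l := by
  unfold W
  rw [tot_sh hf hs hn hδ]
  congr 1
  cases l with
  | nil => exact absurd rfl hne
  | cons a t => exact hf a (by simp) true δ hδ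

/-- the potential at the tip -/
lemma W_tip {l : List ℝ} {x : ℝ} {δ : ℝ} (hf : Flat M ε l) (hs : Sepd ε (l ++ [x]))
    (hn : (l ++ [x]).Nodup) (hδ : |δ| = ε) :
    W M B (sh δ (l ++ [x])) = W M B (l ++ [x]) + pg (!(fl l.length false)) *
      (M (!(fl l.length false)) (x + sg l.length δ) - M (!(fl l.length false)) x) := by
  rcases List.eq_nil_or_concat l with rfl | ⟨l, b, rfl⟩
  · simp [fl]
  · rw [List.concat_eq_append] at hf hs hn ⊢
    have e1 : sh δ (l ++ [b] ++ [x]) = sh δ l ++ [b + sg l.length δ, x + sg (l.length + 1) δ] := by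
      rw [sh_append, sh_append]
      simp
    have e2 : l ++ [b] ++ [x] = l ++ [b, x] := by simp
    have e3 : sh δ l ++ [b + sg l.length δ] = sh δ (l ++ [b]) := by rw [sh_append]; simp
    have hn2 : (l ++ [b]).Nodup := (List.nodup_append'.1 hn).1
    have hs2 : Sepd ε (l ++ [b]) := hs.mono fun p hp => List.mem_append_left _ hp
    have hbx : b ≠ x := by
      rintro rfl
      have := (List.nodup_append'.1 hn).2.2
      exact this (a := b) (by simp) (by simp)
    rw [e1, W_snoc, e3, W_sh (by simp) hf hs2 hn2 hδ, e2, W_snoc]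
    have e4 : (l ++ [b]).length = l.length + 1 := by simp
    rw [e4, fl_succ, Bool.not_not, sh_length]
    have h3 := hs b (by simp) x (by simp) hbx
    unfold inc
    rw [sgn'_copy h3 (by rw [abs_sg, hδ]) (by rw [abs_sg, hδ]),
      hf b (by simp) (fl l.length false) (sg l.length δ) (by rw [abs_sg, hδ])]
    ring

lemma fl_sg (n : ℕ) (δ : ℝ) : (fl n false = false ∧ sg n δ = δ) ∨ (fl n false = true ∧ sg n δ = -δ) := by
  induction n with
  | zero => left; simp [fl]
  | succ n ih =>
    rw [fl_succ, sg_succ, sg_neg]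
    rcases ih with ⟨h1, h2⟩ | ⟨h1, h2⟩
    · right; simp [h1, h2]
    · left; simp [h1, h2]

/-- the mass between the copies of the point `x` -/
noncomputable def wt (M : Bool → ℝ → ℝ) (ε x : ℝ) : ℝ :=
  (M true (x + ε) - M true (x - ε)) + (M false (x + ε) - M false (x - ε))

lemma tip_sum {l : List ℝ} {x : ℝ} (h0 : 0 < ε) (hf : Flat M ε l) (hs : Sepd ε (l ++ [x]))
    (hn : (l ++ [x]).Nodup) :
    W M B (sh (-ε) (l ++ [x])) + inc M B (fl l.length false) (x + sg l.length (-ε))
      (x + sg l.length ε) = W M B (sh ε (l ++ [x])) + (B - wt M ε x) := by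
  have ha : |ε| = ε := abs_of_pos h0
  rw [W_tip hf hs hn ha, W_tip hf hs hn (by rw [abs_neg, ha])]
  unfold inc wt
  rw [sg_neg]
  rcases fl_sg l.length ε with ⟨h1, h2⟩ | ⟨h1, h2⟩
  · rw [h1, h2, sgn'_of_lt (by linarith)]
    simp only [pg_false, Bool.not_false, pg_true]
    rw [← sub_eq_add_neg]
    ring
  · rw [h1, h2, sgn'_of_gt (by linarith)]
    simp only [pg_false, Bool.not_true, pg_true, neg_neg]
    rw [← sub_eq_add_neg]
    ring

/-- the potential on the right copy of an arm -/
theorem fin_right {q t p r : List ℝ} {a : ℝ} (hE : Pot M B false (sh (-ε) q ++ t) E)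
    (hq : q = p ++ a :: r) :
    E (a + sg p.length (-ε)) =
      (E (q.headI - ε) - M true (q.headI - ε)) + W M B (sh (-ε) (p ++ [a])) := by
  subst hq
  have e1 : sh (-ε) (p ++ a :: r) ++ t =
      sh (-ε) p ++ (a + sg p.length (-ε)) :: (sh (-(sg p.length (-ε))) r ++ t) := by
    rw [sh_append]; simp
  rw [e1] at hE
  have h2 := hE.ini.snoc
  have e2 : sh (-ε) p ++ [a + sg p.length (-ε)] = sh (-ε) (p ++ [a]) := by rw [sh_append]; simp
  rw [e2] at h2
  have e3 : (sh (-ε) (p ++ [a])).headI = (p ++ a :: r).headI - ε := by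
    cases p with
    | nil => simp [sub_eq_add_neg]
    | cons b s => simp [sub_eq_add_neg]
  unfold W
  rw [e3] at h2 ⊢
  linarith

/-- the potential on the left copy of an arm -/
theorem fin_left {q t l p r : List ℝ} {a x : ℝ} (h0 : 0 < ε)
    (hE : Pot M B false (sh (-ε) q ++ ((sh ε q).reverse ++ t)) E) (hl : q = l ++ [x])
    (hf : Flat M ε l) (hs : Sepd ε q) (hn : q.Nodup) (hq : q = p ++ a :: r) :
    E (a + sg p.length ε) =
      (E (q.headI - ε) - M true (q.headI - ε)) + (B - wt M ε x) + W M B (sh ε (p ++ [a])) := by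
  have hR := fin_right (p := l) (a := x) (r := []) hE hl
  have ht := tip_sum (B := B) h0 hf (hl ▸ hs) (hl ▸ hn)
  -- the piece at the tip
  have e1 : sh (-ε) q ++ ((sh ε q).reverse ++ t) =
      sh (-ε) l ++ (x + sg l.length (-ε)) :: (x + sg l.length ε) :: ((sh ε l).reverse ++ t) := by
    rw [hl, sh_append, sh_append]; simp
  have hE1 := hE
  rw [e1] at hE1
  have h1 := hE1.append.2.1
  rw [sh_length] at h1
  -- the way back
  have e2 : sh (-ε) q ++ ((sh ε q).reverse ++ t) =
      sh (-ε) q ++ ((x + sg l.length ε) :: ((sh ε l).reverse ++ t)) := by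
    rw [hl, sh_append (δ := ε)]; simp
  have hback : Pot M B (fl q.length false) ((sh (sg p.length ε) (a :: r)).reverse) E := by
    have e3 : (sh ε q).reverse ++ t = (sh (sg p.length ε) (a :: r)).reverse ++
        ((sh ε p).reverse ++ t) := by
      rw [hq, sh_append]; simp
    have h4 : Pot M B (fl q.length false) ((sh ε q).reverse ++ t) E := by
      have h5 := hE
      rw [e2] at h5
      have h6 := h5.suffix
      rw [sh_length] at h6
      have e4 : (x + sg l.length ε) :: ((sh ε l).reverse ++ t) = (sh ε q).reverse ++ t := by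
        rw [hl, sh_append (δ := ε)]; simp
      rwa [e4] at h6
    rw [e3] at h4
    -- the reversed list ends with the copy of `a`
    have e5 : (sh (sg p.length ε) (a :: r)).reverse =
        (sh (-(sg p.length ε)) r).reverse ++ [a + sg p.length ε] := by simp
    rw [e5] at h4 ⊢
    rw [List.append_assoc] at h4
    exact Pot.ini (t := (sh ε p).reverse ++ t) h4
  have e5 : (sh (sg p.length ε) (a :: r)).reverse =
      (sh (-(sg p.length ε)) r).reverse ++ [a + sg p.length ε] := by simp
  have h7 := hback
  rw [e5] at h7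
  have h8 := h7.snoc
  rw [← e5] at h8
  have e6 : ((sh (sg p.length ε) (a :: r)).reverse).headI = x + sg l.length ε := by
    have e7 : (sh ε q).reverse = (sh (sg p.length ε) (a :: r)).reverse ++ (sh ε p).reverse := by
      rw [hq, sh_append]; simp
    have e8 : (sh ε q).reverse = (x + sg l.length ε) :: (sh ε l).reverse := by
      rw [hl, sh_append]; simp
    rw [e8] at e7
    cases h : (sh (sg p.length ε) (a :: r)).reverse with
    | nil => simp at h
    | cons u v =>
      rw [h] at e7
      simp only [List.cons_append, List.cons.injEq] at e7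
      simp [e7.1]
  rw [e6] at h8
  -- the total of the way back
  have hnd : (sh (sg p.length ε) (a :: r)).Nodup := by
    have hsep : Sepd ε (a :: r) := hs.mono fun u hu => by rw [hq]; exact List.mem_append_right _ hu
    have hnn : (a :: r).Nodup := by rw [hq] at hn; exact (List.nodup_append'.1 hn).2.1
    clear h8 h7 hback e5 e6
    have habs : |sg p.length ε| ≤ ε := by rw [abs_sg, abs_of_pos h0]
    generalize sg p.length ε = δ at habs
    generalize a :: r = L at hsep hnn
    induction L generalizing δ with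
    | nil => simp
    | cons u v ih =>
      rw [sh_cons, List.nodup_cons]
      have hnn' := List.nodup_cons.1 hnn
      refine ⟨?_, ih (-δ) (by rwa [abs_neg]) (hsep.mono fun w hw => List.mem_cons_of_mem _ hw)
        hnn'.2⟩
      intro hmem
      obtain ⟨w, hw, σ, hσ, e⟩ := mem_sh hmem
      refine hsep.ne (p := u) (q := w) (by simp) (List.mem_cons_of_mem _ hw) ?_ habs
        (by rw [hσ, abs_neg]; exact habs) e
      rintro rfl
      exact hnn'.1 hw
  have h9 := tot_reverse (M := M) (B := B) (c := fl p.length false) hnd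
  rw [sh_length] at h9
  have e10 : fl (a :: r).length (fl p.length false) = fl q.length false := by
    rw [← fl_add, hq]; congr 1; simp
  rw [e10] at h9
  rw [h9] at h8
  -- the potential at the tip on the left copy
  have h11 : W M B (sh ε q) = W M B (sh ε (p ++ [a])) +
      tot M B (fl p.length false) (sh (sg p.length ε) (a :: r)) := by
    rw [hq, sh_append, sh_append, sh_cons, W_split]
    simp
  rw [← hl] at ht hR
  linarith

end Vale.Agent.P040.DblE
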