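import Vale.Agent.P040.H610.Inst
import Vale.Agent.P040.H84.Val
import Vale.Agent.P040.H908.TriCore

/-!
# `CoreHyp`, `SelInput` and `Machine` from the uniqueness of the values
-/

set_option autoImplicit false

namespace Vale.Agent.P040.ToCrv

open Pst P040H251 Vale.Agent.P040.H906 H84 Bp

variable {h : ℕ}

/-- **The instance.** -/
theorem coreHyp' (P : LData h) (hu : ∀ {z R v v'}, P.Val z R v → P.Val z R v' → v = v') :
    CoreHyp h (sl P.G0) P.Val (Dgs P.pos P.G0) (-1) where
  two_le := P.two_le
  sgn := Or.inr rfl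
  uniq := fun h1 h2 => hu h1 h2
  twist := fun h1 => h1.twist
  cent := by
    intro z c hc
    refine H112.cent_mul_inv (lt_ne_rt P z) ?_
    have hc' : c * sl P.G0 z = sl P.G0 z * c := hc
    show c * sl P.G0 z * c⁻¹ = sl P.G0 z
    rw [hc']
    group
  rot := fun hD => hD.rot
  len := fun hD => by simpa using hD.len
  nodup := fun hD => hD.nodup
  prod := fun hD => hD.prod
  tw := fun hD => hD.tw
  tw' := fun hD => hD.tw'
  tri := fun hD hl => H908.tri_core P hD hl

/-- the geometric input of the final assembly -/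
theorem selInput' (hu : ∀ (h : ℕ) (P : LData h) {z R v v'}, P.Val z R v → P.Val z R v' → v = v')
    (hh : 2 ≤ h) (leaf : Fin (2 * h) → ℝ) (hl : Function.Injective leaf) : SelInput h leaf := by
  have H := coreHyp' (mkData hh leaf hl) (hu h _)
  exact ⟨ℕ, (mkData hh leaf hl).G0, (mkData hh leaf hl).Val, -1, cyc_G0 _, H,
    fun L L' hL hL' htq z => H.anti hL hL' htq z⟩

/-- **`Machine`** from the uniqueness of the values. -/
theorem machine_of_uniq
    (hu : ∀ (h : ℕ) (P : LData h) {z R v v'}, P.Val z R v → P.Val z R v' → v = v') : Machine :=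
  machine_of_input fun _ hh leaf hl => selInput' hu hh leaf hl

end Vale.Agent.P040.ToCrv
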