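import Vale.Agent.P040.H251.Class
import Vale.Agent.P040.H251.SelInst
import Vale.Agent.P040.H908.Inc
import Vale.Agent.P040.H105.Dbl

/-!
# From closed paths (105, 908) to the curves of the selector (251)
-/

set_option autoImplicit false

namespace Vale.Agent.P040.ToCrv

open Pst P040H251 Vale.Agent.P040.H906

/-! ### pieces by index -/

/-- the page after `n` changes, by parity -/
lemma fl_eq (n : ℕ) (b : Bool) : fl n b = if n % 2 = 0 then b else !b := by
  induction n generalizing b with
  | zero => rfl
  | succ n ih =>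
    rw [fl_succ, ih]
    rcases Nat.mod_two_eq_zero_or_one n with h | h
    · rw [if_pos h, if_neg (by omega)]
    · rw [if_neg (by omega), if_pos (by omega), Bool.not_not]

/-- the `k`-th piece -/
lemma pcs_get {l : List ℝ} {pg : Bool} {k : ℕ} (hk : k + 1 < l.length) :
    (fl k pg, g l k, g l (k + 1)) ∈ pcs pg l := by
  induction l generalizing pg k with
  | nil => simp at hk
  | cons a t ih =>
    cases t with
    | nil => simp at hk
    | cons b t =>
      rw [pcs_cons]
      cases k with
      | zero => simp [g, fl]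
      | succ k =>
        have := ih (pg := !pg) (k := k) (by simpa using hk)
        have e1 : g (a :: b :: t) (k + 1) = g (b :: t) k := by simp [g]
        have e2 : g (a :: b :: t) (k + 1 + 1) = g (b :: t) (k + 1) := by simp [g]
        rw [e1, e2]
        exact List.mem_cons_of_mem _ this

/-- every piece is the `k`-th for some `k` -/
lemma exists_get {l : List ℝ} {pg c : Bool} {a b : ℝ} (h : (c, a, b) ∈ pcs pg l) :
    ∃ k, k + 1 < l.length ∧ c = fl k pg ∧ a = g l k ∧ b = g l (k + 1) := by
  induction l generalizing pg with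
  | nil => simp at h
  | cons x t ih =>
    cases t with
    | nil => simp at h
    | cons y t =>
      rw [pcs_cons] at h
      rcases List.mem_cons.1 h with h | h
      · simp only [Prod.mk.injEq] at h
        obtain ⟨rfl, rfl, rfl⟩ := h
        exact ⟨0, by simp, rfl, by simp [g], by simp [g]⟩
      · obtain ⟨k, h1, h2, h3, h4⟩ := ih h
        refine ⟨k + 1, by simpa using h1, h2, ?_, ?_⟩
        · rw [h3]; simp [g]
        · rw [h4]; simp [g]

lemma g_snoc_lt {L : List ℝ} {x : ℝ} {k : ℕ} (hk : k < L.length) : g (L ++ [x]) k = g L k := by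
  unfold g
  rw [List.getD_append _ _ _ _ hk]

lemma g_snoc_eq {L : List ℝ} {x : ℝ} : g (L ++ [x]) L.length = x := by
  unfold g
  rw [List.getD_append_right _ _ _ _ le_rfl]
  simp

lemma headI_eq {L : List ℝ} : L.headI = g L 0 := by
  cases L with
  | nil => rfl
  | cons a t => rfl

/-- the chord at `x` is a piece -/
theorem chord_mem {s : Bool} {L : List ℝ} (h : CL L) (b : Bool) {x : ℝ} (hx : x ∈ L) :
    (b, x, fO s L b x) ∈ pcs s (L ++ [L.headI]) ∨ (b, fO s L b x, x) ∈ pcs s (L ++ [L.headI]) := by
  obtain ⟨i, hi, rfl⟩ := ex_idx hx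
  have hev := h.even
  have hlen : (L ++ [L.headI]).length = L.length + 1 := by simp
  -- the `k`-th piece
  have P : ∀ k, k + 1 < L.length → (fl k s, g L k, g L (k + 1)) ∈ pcs s (L ++ [L.headI]) := by
    intro k hk
    have := pcs_get (l := L ++ [L.headI]) (pg := s) (k := k) (by rw [hlen]; omega)
    rwa [g_snoc_lt (by omega), g_snoc_lt hk] at this
  have P0 : (fl (L.length - 1) s, g L (L.length - 1), g L 0) ∈ pcs s (L ++ [L.headI]) := by
    have hp := h.pos
    have := pcs_get (l := L ++ [L.headI]) (pg := s) (k := L.length - 1) (by rw [hlen]; omega)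
    rw [g_snoc_lt (by omega), show L.length - 1 + 1 = L.length by omega, g_snoc_eq,
      headI_eq] at this
    rwa [headI_eq]
  rw [f_g h s b hi]
  have hA : ∀ k, k % 2 = 0 → fl k s = s := fun k hk => by rw [fl_eq, if_pos hk]
  have hB : ∀ k, k % 2 = 1 → fl k s = !s := fun k hk => by rw [fl_eq, if_neg (by omega)]
  by_cases hsb : b = s
  · have e : pI L.length s b i = uI i := by subst hsb; cases b <;> rfl
    rw [e, hsb]
    rcases uI_cases i with ⟨h1, h2⟩ | ⟨h1, h2⟩
    · left
      rw [h2]
      have := P i (by omega)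
      rwa [hA i h1] at this
    · right
      rw [h2]
      have := P (i - 1) (by omega)
      rwa [hA (i - 1) (by omega), show i - 1 + 1 = i by omega] at this
  · have hb : b = !s := by cases b <;> cases s <;> simp_all
    have e : pI L.length s b i = lI L.length i := by subst hb; cases s <;> rfl
    rw [e, hb]
    rcases lI_cases L.length i with ⟨h1, h2, h3⟩ | ⟨h1, h2, h3⟩ | ⟨h1, h3⟩ | ⟨h1, h2, h3⟩
    · left
      rw [h3]
      have := P0
      rwa [hB _ (by omega), show L.length - 1 = i by omega] at this
    · left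
      rw [h3]
      have := P i (by omega)
      rwa [hB i h1] at this
    · right
      rw [h3, h1]
      have := P0
      rwa [hB _ (by omega)] at this
    · right
      rw [h3]
      have := P (i - 1) (by omega)
      rwa [hB (i - 1) (by omega), show i - 1 + 1 = i by omega] at this

/-! ### planarity -/

/-- pieces in the same page do not interleave -/
def NC (s : Bool) (L : List ℝ) : Prop :=
  ∀ c a b a' b', (c, a, b) ∈ pcs s (L ++ [L.headI]) → (c, a', b') ∈ pcs s (L ++ [L.headI]) →
    ¬ Topo.Inter a b a' b'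

lemma not_inter_chord {s : Bool} {L : List ℝ} (h : CL L) (hnc : NC s L) {b : Bool} {x y : ℝ}
    (hx : x ∈ L) (hy : y ∈ L) : ¬ Topo.Inter x (fO s L b x) y (fO s L b y) := by
  rcases chord_mem (s := s) h b hx with h1 | h1 <;> rcases chord_mem (s := s) h b hy with h2 | h2
  · exact hnc _ _ _ _ _ h1 h2
  · have := hnc _ _ _ _ _ h1 h2
    rw [Pst.inter_iff] at this ⊢
    tauto
  · have := hnc _ _ _ _ _ h1 h2
    rw [Pst.inter_iff, min_comm, max_comm] at this
    rw [Pst.inter_iff]
    exact this
  · have := hnc _ _ _ _ _ h1 h2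
    rw [Pst.inter_iff, min_comm, max_comm] at this
    rw [Pst.inter_iff]
    tauto

/-- **(i)** -/
theorem planar_of_nc {s : Bool} {L : List ℝ} (h : CL L) (hnc : NC s L) : Planar s L := by
  intro b x hx y hy hc
  have h1 := not_inter_chord h hnc (b := b) hx hy
  have hxf := f_ne h s b hx
  have hyf := f_ne h s b hy
  have hyy : fO s L b y ≠ x := by
    intro e
    have : y = fO s L b x := by rw [← e, f_f h s b hy]
    rw [this] at hc
    unfold Vale.Agent.P040.H906.Cyc at hc
    rcases hc with ⟨-, h3⟩ | ⟨h3, -⟩ | ⟨h3, h4⟩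
    · exact lt_irrefl _ h3
    · exact lt_irrefl _ h3
    · exact lt_irrefl _ (h3.trans h4)
  have hyx : y ≠ x := by
    rintro rfl
    unfold Vale.Agent.P040.H906.Cyc at hc
    rcases hc with ⟨h3, -⟩ | ⟨h2, h3⟩ | ⟨-, h3⟩
    · exact lt_irrefl _ h3
    · exact lt_irrefl _ (h2.trans h3)
    · exact lt_irrefl _ h3
  have hyfx : fO s L b y ≠ fO s L b x := by
    intro e
    apply hyx
    rw [← f_f h s b hy, e, f_f h s b hx]
  generalize fO s L b x = x' at *
  generalize fO s L b y = y' at *
  rw [Pst.inter_iff] at h1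
  unfold Vale.Agent.P040.H906.Cyc at hc ⊢
  rcases lt_or_gt_of_ne hxf with hlt | hlt
  · rw [min_eq_right hlt.le, max_eq_left hlt.le] at h1
    have hc' : y < x' ∨ x < y := by
      rcases hc with ⟨h3, h4⟩ | ⟨h3, h4⟩ | ⟨h3, h4⟩
      · exact absurd (h3.trans h4) (not_lt.2 hlt.le)
      · exact Or.inl h3
      · exact Or.inr h4
    -- `y` outside `[x', x]`, so `y'` is outside
    by_contra hcon
    apply h1
    right
    have h5 : x' < y' ∧ y' < x := by
      constructor
      · rcases lt_or_gt_of_ne hyfx with h6 | h6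
        · exact absurd (Or.inr (Or.inl ⟨h6, hlt⟩)) hcon
        · exact h6
      · rcases lt_or_gt_of_ne hyy with h6 | h6
        · exact h6
        · exact absurd (Or.inr (Or.inr ⟨hlt, h6⟩)) hcon
    exact ⟨h5.1, h5.2, hc'⟩
  · rw [min_eq_left hlt.le, max_eq_right hlt.le] at h1
    have hc' : x < y ∧ y < x' := by
      rcases hc with ⟨h3, h4⟩ | ⟨h3, h4⟩ | ⟨h3, h4⟩
      · exact ⟨h3, h4⟩
      · exact absurd h4 (not_lt.2 hlt.le)
      · exact absurd h3 (not_lt.2 hlt.le)
    left
    by_contra hcon
    apply h1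
    left
    refine ⟨hc'.1, hc'.2, ?_⟩
    rcases lt_or_gt_of_ne hyy with h6 | h6
    · exact Or.inl h6
    · rcases lt_or_gt_of_ne hyfx with h7 | h7
      · exact absurd ⟨h6, h7⟩ hcon
      · exact Or.inr h7

/-! ### consistency -/

/-- **(ii)** from a consistent function on the closed path to a curve with phases. -/
theorem crv_of_cons {D : Dat ℝ} {s : Bool} {L : List ℝ} {E : ℝ → ℝ} {B : ℝ} {MU ML : ℝ → ℝ}
    (h : CL L) (hnc : NC s L) (hE : H908.Cons B MU ML E s (L ++ [L.headI])) (hB : D.M = B)
    (kU kL : ℝ) (hU : ∀ x ∈ L, D.C true (D.lab x) = MU x + kU)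
    (hL : ∀ x ∈ L, D.C false (D.lab x) = ML x + kL) : Crv D s L E := by
  refine crv_of_lt h (planar_of_nc h hnc) ?_
  intro b x hx hlt
  have hx' := f_mem h s b hx
  have key : E (fO s L b x) - E x = H908.inc B MU ML b x (fO s L b x) := by
    rcases chord_mem (s := s) h b hx with h1 | h1
    · exact hE _ _ _ h1
    · have := hE _ _ _ h1
      rw [H908.inc_swap hlt.ne] at this
      linarith
  have hs : H908.sgn x (fO s L b x) = 1 := by unfold H908.sgn; rw [if_pos hlt]
  cases b
  · rw [H908.inc_false, hs] at key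
    rw [hL x hx, hL _ hx', hB]
    simp only [H906.sg, Bool.false_eq_true, if_false]
    linarith
  · rw [H908.inc_true, hs] at key
    rw [hU x hx, hU _ hx', hB]
    simp only [H906.sg, if_true]
    linarith

end Vale.Agent.P040.ToCrv
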