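import Vale.Agent.P040.H610.Exist
import Vale.Agent.P040.H242.Dgs

/-!
# The triangle rule in the words of framed lists
-/

set_option autoImplicit false
set_option linter.unusedSimpArgs false

namespace Vale.Agent.P040.ToCrv

open Pst P040H251 Vale.Agent.P040.H906 H84

variable {h : ℕ} (P : LData h)

/-- value of the doubled sub-star `T`, relative to the leaf `z` -/
noncomputable def rv (ε : ℝ) (T : List (Fin (2 * h) × List ℝ)) (E : ℝ → ℝ) (z : Fin (2 * h)) : ℝ :=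
  (selApi (W := ℝ)).val false (dbl ε T) E - E (P.pos z + ε)

/-- **The triangle rule (geometric form).** `h + 1` consecutive arms `a, A, b, B, c` of a star. -/
def TriGeom : Prop :=
  ∀ (S : List (Fin (2 * h) × List ℝ)), IsStar P.pos S → ∀ ε : ℝ, 0 < ε → Sepd ε (pts S) →
    ∀ (a b c : Fin (2 * h) × List ℝ) (A B L : List (Fin (2 * h) × List ℝ)),
      S = a :: (A ++ b :: (B ++ c :: L)) → A.length + B.length + 2 = h →
      ∃ Ea Eb Ec : ℝ → ℝ,
        Crv P.D0 false (dbl ε (A ++ b :: (B ++ [c]))) Ea ∧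
        Crv P.D0 false (dbl ε (a :: (A ++ (B ++ [c])))) Eb ∧
        Crv P.D0 false (dbl ε (a :: (A ++ b :: B))) Ec ∧
        0 ≤ rv P ε (A ++ b :: (B ++ [c])) Ea c.1 - rv P ε (a :: (A ++ (B ++ [c]))) Eb c.1 ∧
        0 ≤ rv P ε (a :: (A ++ (B ++ [c]))) Eb a.1 - rv P ε (a :: (A ++ b :: B)) Ec a.1 ∧
        0 ≤ rv P ε (a :: (A ++ b :: B)) Ec b.1 - rv P ε (A ++ b :: (B ++ [c])) Ea b.1 ∧
        (rv P ε (A ++ b :: (B ++ [c])) Ea c.1 - rv P ε (a :: (A ++ (B ++ [c]))) Eb c.1) +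
        (rv P ε (a :: (A ++ (B ++ [c]))) Eb a.1 - rv P ε (a :: (A ++ b :: B)) Ec a.1) +
        (rv P ε (a :: (A ++ b :: B)) Ec b.1 - rv P ε (A ++ b :: (B ++ [c])) Ea b.1) ≤ 1

/-- the loops of a sub-star -/
lemma pr_frm {pos : Fin (2 * h) → ℝ} {Γ : Type*} (G : Gaps pos Γ)
    (T : List (Fin (2 * h) × List ℝ)) :
    pr (sl G) (frm G T) = (T.map fun q => lp G q.1 q.2).prod := by
  unfold pr frm
  rw [List.map_map]
  congr 1
  apply List.map_congr_left
  intro q _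
  exact gg_wz G q.1 q.2

variable {P}

/-- the value of a sub-star as a value of the framed list -/
theorem val_frm {S : List (Fin (2 * h) × List ℝ)} (hS : IsStar P.pos S) {ε : ℝ}
    (hε : Sepd ε (pts S)) (h0 : 0 < ε) {T A B : List (Fin (2 * h) × List ℝ)}
    {z : Fin (2 * h) × List ℝ} (hT' : T = A ++ z :: B) (hT : ∀ q ∈ T, q ∈ S) {E : ℝ → ℝ}
    (hC : Crv P.D0 false (dbl ε T) E) {R : FreeGroup ℕ}
    (hR : R = (wz P.G0 z.1 z.2)⁻¹ * pr (sl P.G0) (frm P.G0 (B ++ A)) * wz P.G0 z.1 z.2) :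
    P.Val z.1 R (rv P ε T E z.1) := by
  subst hT'
  rw [hR, pr_frm]
  exact exists_val P hS hε h0 (z := z.1) (p := z.2) hT hC

/-- field `tri` -/
theorem tri_of (HT : TriGeom P) {a b c : Fin (2 * h) × FreeGroup ℕ}
    {A B L : List (Fin (2 * h) × FreeGroup ℕ)}
    (hD : Dgs P.pos P.G0 (a :: (A ++ b :: (B ++ c :: L)))) (hl : A.length + B.length + 2 = h) :
    ∃ c1 c2 a2 a3 b3 b1 : ℝ,
      P.Val c.1 (c.2⁻¹ * (pr (sl P.G0) A * gg (sl P.G0) b * pr (sl P.G0) B) * c.2) c1 ∧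
      P.Val c.1 (c.2⁻¹ * (gg (sl P.G0) a * pr (sl P.G0) A * pr (sl P.G0) B) * c.2) c2 ∧
      P.Val a.1 (a.2⁻¹ * (pr (sl P.G0) A * pr (sl P.G0) B * gg (sl P.G0) c) * a.2) a2 ∧
      P.Val a.1 (a.2⁻¹ * (pr (sl P.G0) A * gg (sl P.G0) b * pr (sl P.G0) B) * a.2) a3 ∧
      P.Val b.1 (b.2⁻¹ * (pr (sl P.G0) B * gg (sl P.G0) a * pr (sl P.G0) A) * b.2) b3 ∧
      P.Val b.1 (b.2⁻¹ * (pr (sl P.G0) B * gg (sl P.G0) c * pr (sl P.G0) A) * b.2) b1 ∧
      |c1 - c2| + |a2 - a3| + |b3 - b1| ≤ 1 := by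
  obtain ⟨S, hS, hL, -⟩ := hD
  -- the arms
  unfold frm at hL
  rw [List.map_eq_cons_iff] at hL
  obtain ⟨a', S1, rfl, ha, hL⟩ := hL
  rw [List.map_eq_append_iff] at hL
  obtain ⟨A', S2, rfl, hA, hL⟩ := hL
  rw [List.map_eq_cons_iff] at hL
  obtain ⟨b', S3, rfl, hb, hL⟩ := hL
  rw [List.map_eq_append_iff] at hL
  obtain ⟨B', S4, rfl, hB, hL⟩ := hL
  rw [List.map_eq_cons_iff] at hL
  obtain ⟨c', L', rfl, hc, hL⟩ := hL
  obtain ⟨ε, h0, hε⟩ := exists_sepd (pts (a' :: (A' ++ b' :: (B' ++ c' :: L'))))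
  have hA' : frm P.G0 A' = A := hA
  have hB' : frm P.G0 B' = B := hB
  have hl' : A'.length + B'.length + 2 = h := by
    have e1 := congrArg List.length hA
    have e2 := congrArg List.length hB
    rw [List.length_map] at e1 e2
    omega
  obtain ⟨Ea, Eb, Ec, ca, cb, cc, i1, i2, i3, i4⟩ :=
    HT _ hS ε h0 hε a' b' c' A' B' L' rfl hl'
  subst ha hb hc
  have ga : gg (sl P.G0) (a'.1, wz P.G0 a'.1 a'.2) = pr (sl P.G0) (frm P.G0 [a']) := by
    simp [frm]
  have gb : gg (sl P.G0) (b'.1, wz P.G0 b'.1 b'.2) = pr (sl P.G0) (frm P.G0 [b']) := by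
    simp [frm]
  have gc : gg (sl P.G0) (c'.1, wz P.G0 c'.1 c'.2) = pr (sl P.G0) (frm P.G0 [c']) := by
    simp [frm]
  have fa : ∀ X Y : List (Fin (2 * h) × List ℝ), frm P.G0 (X ++ Y) = frm P.G0 X ++ frm P.G0 Y := by
    intro X Y; simp [frm]
  have fc : ∀ (x : Fin (2 * h) × List ℝ) (Y : List (Fin (2 * h) × List ℝ)),
      pr (sl P.G0) (frm P.G0 (x :: Y)) =
        gg (sl P.G0) (x.1, wz P.G0 x.1 x.2) * pr (sl P.G0) (frm P.G0 Y) := by
    intro x Y; simp [frm]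
  have fn : pr (sl P.G0) (frm P.G0 ([] : List (Fin (2 * h) × List ℝ))) = 1 := by simp [frm]
  refine ⟨_, _, _, _, _, _,
    val_frm hS hε h0 (T := A' ++ b' :: (B' ++ [c'])) (A := A' ++ b' :: B') (B := []) (z := c')
      (by simp) (by intro q hq; simp only [List.mem_append, List.mem_cons] at hq ⊢; tauto) ca ?_,
    val_frm hS hε h0 (T := a' :: (A' ++ (B' ++ [c']))) (A := a' :: (A' ++ B')) (B := []) (z := c')
      (by simp) (by intro q hq; simp only [List.mem_append, List.mem_cons] at hq ⊢; tauto) cb ?_,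
    val_frm hS hε h0 (T := a' :: (A' ++ (B' ++ [c']))) (A := []) (B := A' ++ (B' ++ [c']))
      (z := a') (by simp)
      (by intro q hq; simp only [List.mem_append, List.mem_cons] at hq ⊢; tauto) cb ?_,
    val_frm hS hε h0 (T := a' :: (A' ++ b' :: B')) (A := []) (B := A' ++ b' :: B')
      (z := a') (by simp)
      (by intro q hq; simp only [List.mem_append, List.mem_cons] at hq ⊢; tauto) cc ?_,
    val_frm hS hε h0 (T := a' :: (A' ++ b' :: B')) (A := a' :: A') (B := B')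
      (z := b') (by simp)
      (by intro q hq; simp only [List.mem_append, List.mem_cons] at hq ⊢; tauto) cc ?_,
    val_frm hS hε h0 (T := A' ++ b' :: (B' ++ [c'])) (A := A') (B := B' ++ [c'])
      (z := b') (by simp)
      (by intro q hq; simp only [List.mem_append, List.mem_cons] at hq ⊢; tauto) ca ?_, ?_⟩
  · simp only [List.nil_append, fa, pr_append, fc, hA', hB', fn, mul_one, mul_assoc]
  · simp only [List.nil_append, fa, pr_append, fc, hA', hB', fn, mul_one, mul_assoc]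
  · simp only [List.append_nil, fa, pr_append, fc, hA', hB', fn, mul_one, mul_assoc]
  · simp only [List.append_nil, fa, pr_append, fc, hA', hB', fn, mul_one, mul_assoc]
  · simp only [fa, pr_append, fc, hA', hB', fn, mul_one, mul_assoc]
  · simp only [List.append_assoc, List.cons_append, List.nil_append, fa, pr_append, fc, hA', hB',
      fn, mul_one, mul_assoc]
  · rw [abs_of_nonneg i1, abs_of_nonneg i2, abs_of_nonneg i3]
    exact i4

end Vale.Agent.P040.ToCrv
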